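import Vale.Agent.P179.Allb.KnDef2
import Vale.Agent.P179.R2.H364.ActT

/-!
# Transfer of a free cyclic action along `ActSub`
-/

namespace Vale.P179.Allb

open Subgroup P179H292 P179H364

open P179B (FreeCyclicOn)

section Act

variable {G X : Type*} [Group G] [Group X] {K T : Subgroup G} {D' T' : Subgroup X}

/-- the image of `T` in the automorphism group of `K` -/
noncomputable def img (K T : Subgroup G) (h : T ≤ normalizer (K : Set G)) : T →* MulAut K :=
  (normalizerMonoidHom K).comp (inclusion h)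

theorem img_apply {K T : Subgroup G} (h : T ≤ normalizer (K : Set G)) (t : T) (x : K) :
    ((img K T h t x : K) : G) = t * x * (t : G)⁻¹ := rfl

theorem img_eq_one {K T : Subgroup G} (h : T ≤ normalizer (K : Set G)) (t : T) :
    img K T h t = 1 ↔ (t : G) ∈ centralizer (K : Set G) := by
  constructor
  · intro h1
    rw [mem_centralizer_iff]
    intro x hx
    have h2 := congrArg (fun z : MulAut K => ((z ⟨x, hx⟩ : K) : G)) h1
    change (t : G) * x * (t : G)⁻¹ = x at h2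
    rw [mul_inv_eq_iff_eq_mul] at h2
    exact h2.symm
  · intro h1
    apply MulEquiv.ext
    intro x
    apply Subtype.ext
    rw [img_apply]
    change (t : G) * x * (t : G)⁻¹ = x
    rw [mul_inv_eq_iff_eq_mul]
    exact (mem_centralizer_iff.1 h1 x x.2).symm

theorem normalizer_act (hK : ∀ t ∈ T, ∀ x ∈ K, t * x * t⁻¹ ∈ K) (h : ActSub K T D' T') :
    T' ≤ normalizer (D' : Set X) := by
  obtain ⟨e, he⟩ := act_spec hK h
  have hconj : ∀ t ∈ T', ∀ d ∈ D', t * d * t⁻¹ ∈ D' := by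
    intro t' ht' d hd
    obtain ⟨t, ht, hte, -⟩ := he t' ht'
    obtain ⟨x, hx⟩ := e.surjective ⟨d, hd⟩
    have h2 := (hte x ⟨t * x * t⁻¹, hK t ht x x.2⟩).1 rfl
    rw [hx] at h2
    change _ = t' * d * t'⁻¹ at h2
    rw [← h2]
    exact (e _).2
  intro t ht
  rw [mem_normalizer_iff]
  intro x
  refine ⟨fun hx => hconj t ht x hx, fun hx => ?_⟩
  have h1 := hconj t⁻¹ (inv_mem ht) _ hx
  have e : t⁻¹ * (t * x * t⁻¹) * t⁻¹⁻¹ = x := by group
  rwa [e] at h1

/-- a cyclic action -/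
theorem cyclic_act [Finite K] (hT : T ≤ normalizer (K : Set G)) (h : ActSub K T D' T')
    (hc : ∃ t ∈ T, ∀ n ∈ T, ∃ i : ℕ, t ^ i * n ∈ centralizer (K : Set G)) :
    ∃ t ∈ T', ∀ n ∈ T', ∃ i : ℕ, t ^ i * n ∈ centralizer (D' : Set X) := by
  have hK : ∀ t ∈ T, ∀ x ∈ K, t * x * t⁻¹ ∈ K := fun t ht x hx =>
    (mem_normalizer_iff.1 (hT ht) x).1 hx
  have hT' := normalizer_act hK h
  obtain ⟨e, he⟩ := act_spec hK h
  have hfin : Finite D' := Finite.of_equiv K e.toEquiv
  have : Finite (MulAut K) := Finite.of_injective (fun f : MulAut K => (f : K → K))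
    DFunLike.coe_injective
  have : Finite (MulAut D') := Finite.of_injective (fun f : MulAut D' => (f : D' → D'))
    DFunLike.coe_injective
  -- the range of `img K T` is cyclic
  have h1 : IsCyclic (img K T hT).range := by
    obtain ⟨t, ht, hgen⟩ := hc
    refine ⟨⟨⟨img K T hT ⟨t, ht⟩, ⟨_, rfl⟩⟩, ?_⟩⟩
    rintro ⟨_, ⟨n, rfl⟩⟩
    obtain ⟨i, hi⟩ := hgen n n.2
    have h2 := (img_eq_one hT (⟨t, ht⟩ ^ i * n)).2 (by simpa using hi)
    rw [map_mul, map_pow] at h2
    refine ⟨-i, Subtype.ext ?_⟩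
    change (img K T hT ⟨t, ht⟩) ^ (-(i : ℤ)) = img K T hT n
    rw [zpow_neg, zpow_natCast]
    exact (eq_inv_of_mul_eq_one_right h2).symm
  -- the range of `img D' T'` is contained in the conjugate
  have h2 : (img D' T' hT').range ≤ (img K T hT).range.map (MulAut.congr e).toMonoidHom := by
    rintro _ ⟨t', rfl⟩
    obtain ⟨t, ht, hte, -⟩ := he t' t'.2
    refine ⟨img K T hT ⟨t, ht⟩, ⟨_, rfl⟩, ?_⟩
    apply MulEquiv.ext
    intro y
    obtain ⟨x, rfl⟩ := e.surjective y
    apply Subtype.ext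
    rw [img_apply]
    have h3 := (hte x (img K T hT ⟨t, ht⟩ x)).1 rfl
    rw [← h3]
    simp
  have h3 : IsCyclic ((img K T hT).range.map (MulAut.congr e).toMonoidHom) := by
    have := h1
    exact isCyclic_of_surjective
      ((MulAut.congr e).toMonoidHom.subgroupMap (img K T hT).range)
      (MonoidHom.subgroupMap_surjective _ _)
  have h4 : IsCyclic (img D' T' hT').range := by
    have := h3
    exact isCyclic_of_injective (inclusion h2) (inclusion_injective h2)
  obtain ⟨⟨_, ⟨t, rfl⟩⟩, hg⟩ := h4.exists_generator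
  refine ⟨t, t.2, fun n hn => ?_⟩
  have h5 : (⟨img D' T' hT' ⟨n, hn⟩, ⟨_, rfl⟩⟩ : (img D' T' hT').range)⁻¹ ∈
      zpowers (⟨img D' T' hT' t, ⟨_, rfl⟩⟩ : (img D' T' hT').range) := hg _
  rw [← mem_powers_iff_mem_zpowers] at h5
  obtain ⟨i, hi⟩ := h5
  refine ⟨i, ?_⟩
  have h6 : (img D' T' hT' t) ^ i = (img D' T' hT' ⟨n, hn⟩)⁻¹ := congrArg Subtype.val hi
  have h7 : img D' T' hT' (t ^ i * ⟨n, hn⟩) = 1 := by
    rw [map_mul, map_pow, h6, inv_mul_cancel]
  simpa using (img_eq_one hT' _).1 h7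

theorem freeCyclicOn_act [Finite K] (hT : T ≤ normalizer (K : Set G)) (h : ActSub K T D' T')
    (hc : FreeCyclicOn K T) : FreeCyclicOn D' T' :=
  ⟨free_act (fun t ht x hx => (mem_normalizer_iff.1 (hT ht) x).1 hx) h hc.1,
    cyclic_act hT h hc.2⟩

end Act

end Vale.P179.Allb
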