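import Vale.Agent.P179.Sgn.Final
import Vale.Agent.P179.H526.InertDefs

/-!
# ALLB (P179): the signature theorem for all blocks: frozen letters, one `Prop` per module

`D` is an abelian `p`-group, `τ` an automorphism of order `e` acting freely on `D - 1`.
The class `AX` consists of the symmetric algebras `Λ` with a homomorphism `D ⋊ ⟨τ⟩ → Λˣ` and a
`D × D`-stable basis whose stabilisers are `τ`-twisted diagonal subgroups.
-/

namespace Vale.P179.Allb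

open Module Vale.P179.Sgn Vale.P179.H445
open scoped TensorProduct

/-! ## Letters -/

/-- `D` is an abelian `p`-group with an automorphism `τ` of order prime to `p`. -/
structure TW0 (p : ℕ) (D : Type) [CommGroup D] (τ : MulAut D) (e : ℕ) : Prop where
  pgr : IsPGroup p D
  pow : τ ^ e = 1
  cop : e.Coprime p

/-- `D` is an abelian `p`-group with an automorphism `τ` of order prime to `p`, acting freely. -/
structure TW (p : ℕ) (D : Type) [CommGroup D] (τ : MulAut D) (e : ℕ) : Prop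
    extends TW0 p D τ e where
  free : ∀ (i : ℕ) (d : D), d ≠ 1 → (τ ^ i) d = d → e ∣ i

/-- A `D`-interior symmetric algebra with a `D × D`-stable basis. -/
structure PX (k D Λ : Type) [Field k] [CommGroup D] [Ring Λ] [Algebra k Λ] where
  /-- the structure map -/
  u : D →* Λ
  /-- the symmetrising form -/
  t : Λ →ₗ[k] k
  /-- the index type of the basis -/
  I : Type
  fin : Fintype I
  /-- the basis -/
  b : Basis I k Λ
  tc : ∀ x y, t (x * y) = t (y * x)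
  nd : ∀ x, (∀ y, t (x * y) = 0) → x = 0
  stab : ∀ (x y : D) (i : I), ∃ j, u x * b i * u y = b j

namespace PX

variable {k D Λ : Type} [Field k] [CommGroup D] [Ring Λ] [Algebra k Λ] (A : PX k D Λ)

/-- the centraliser of `X` -/
def CA (X : Subgroup D) : Subalgebra k Λ := Subalgebra.centralizer k (A.u '' (X : Set D))

/-- the radical of the form on the centraliser of `X` (= the kernel of the Brauer map) -/
def KA (X : Subgroup D) : Submodule k Λ where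
  carrier := {a | a ∈ A.CA X ∧ ∀ c ∈ A.CA X, A.t (a * c) = 0}
  add_mem' := by
    rintro a b ⟨ha, ha'⟩ ⟨hb, hb'⟩
    exact ⟨add_mem ha hb, fun c hc => by rw [add_mul, map_add, ha' c hc, hb' c hc, add_zero]⟩
  zero_mem' := ⟨zero_mem _, fun c _ => by rw [zero_mul, map_zero]⟩
  smul_mem' := by
    rintro r a ⟨ha, ha'⟩
    exact ⟨Subalgebra.smul_mem _ ha r, fun c hc => by
      rw [smul_mul_assoc, map_smul, ha' c hc, smul_zero]⟩

/-- the number of basis elements fixed by `X` (under conjugation) -/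
noncomputable def cnt (X : Subgroup D) : ℕ :=
  Nat.card {i : A.I // ∀ x ∈ X, A.u x * A.b i = A.b i * A.u x}

end PX

/-- The class `AX`. -/
structure AX (k D Λ : Type) [Field k] [CommGroup D] [Ring Λ] [Algebra k Λ] (τ : MulAut D)
    (e : ℕ) extends PX k D Λ where
  /-- the unit inducing `τ` -/
  n : Λ
  npow : n ^ e = 1
  nu : ∀ x, n * u x = u (τ x) * n
  tw : ∀ i, ∃ s : ℕ, ∀ x y, u x * b i = b i * u y → y = (τ ^ s) x
  loc : ∀ a, (∀ x, u x * a = a * u x) → IsUnit a ∨ IsNilpotent a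
  rank : toPX.cnt ⊤ = Nat.card D

/-- all nontrivial subgroups are good -/
def AX.AllGood {k D Λ : Type} [Field k] [CommGroup D] [Ring Λ] [Algebra k Λ] {τ : MulAut D}
    {e : ℕ} (A : AX k D Λ τ e) : Prop := ∀ X : Subgroup D, X ≠ ⊥ → A.cnt X = Nat.card D

/-- `v` identifies `Λ'` with the corner `j R j`. -/
structure Cor {k R Λ' : Type} [Field k] [Ring R] [Algebra k R] [Ring Λ'] [Algebra k Λ']
    (j : R) (v : Λ' →ₗ[k] R) : Prop where
  inj : Function.Injective v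
  mul : ∀ x y, v (x * y) = v x * v y
  one : v 1 = j
  rng : ∀ a, j * a * j = a → ∃ x, v x = a

/-- A group `Γ` which is a semidirect product `D ⋊ ⟨g⟩`. -/
structure GX (D Γ : Type) [CommGroup D] [Group Γ] (τ : MulAut D) (e : ℕ) (i : D →* Γ)
    (g : Γ) : Prop where
  inj : Function.Injective i
  tw : ∀ x, g * i x = i (τ x) * g
  pow : g ^ e = 1
  gen : ∀ γ, ∃ (x : D) (s : ℕ), γ = i x * g ^ s
  card : Nat.card Γ = Nat.card D * e

/-- the data of a local quotient `Λ₁ = Λ(Q) ⊗_{kQ} k` -/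
structure Bar {k D Λ Λ₁ : Type} [Field k] [CommGroup D] [Ring Λ] [Algebra k Λ] [Ring Λ₁]
    [Algebra k Λ₁] {τ : MulAut D} {e : ℕ} (A : AX k D Λ τ e) (Q : Subgroup D)
    (A₁ : AX k (D ⧸ Q) Λ₁ 1 1) (π : A.CA Q →ₐ[k] Λ₁) : Prop where
  surj : Function.Surjective π
  map_u : ∀ (x : D) (h : A.u x ∈ A.CA Q), π ⟨A.u x, h⟩ = A₁.u (QuotientGroup.mk x)
  map_t : ∀ a : A.CA Q, A₁.t (π a) = ∑ᶠ q : Q, A.t (a * A.u q)
  cnt : ∀ R : Subgroup D, Q ≤ R →
    A₁.cnt (R.map (QuotientGroup.mk' Q)) * Nat.card Q = A.cnt R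

/-- a representation of `D` by matrices together with a compatible action of `τ`, and a basis of
the matrix algebra stable under conjugation by `D` -/
structure WD (k D J : Type) [Field k] [CommGroup D] [Fintype J] [DecidableEq J] (τ : MulAut D)
    (e : ℕ) where
  /-- the representation -/
  r : D →* Matrix J J k
  /-- the action of `τ` -/
  ν : Matrix J J k
  νpow : ν ^ e = 1
  νr : ∀ x, ν * r x = r (τ x) * ν
  /-- the index type of the basis -/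
  T : Type
  fin : Fintype T
  /-- the basis -/
  θ : Basis T k (Matrix J J k)
  stab : ∀ x i, ∃ j, r x * θ i * r x⁻¹ = θ j

/-- the number of basis elements fixed by `X` -/
noncomputable def WD.cnt {k D J : Type} [Field k] [CommGroup D] [Fintype J] [DecidableEq J]
    {τ : MulAut D} {e : ℕ} (w : WD k D J τ e) (X : Subgroup D) : ℕ :=
  Nat.card {i : w.T // ∀ x ∈ X, w.r x * w.θ i = w.θ i * w.r x}

/-- `M_J(k) = k ⊕ (X-permutation module without fixed points)` under conjugation by `r` -/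
def OneFixed {k D J : Type} [Field k] [CommGroup D] [Fintype J] [DecidableEq J]
    (r : D →* Matrix J J k) (X : Subgroup D) : Prop :=
  ∃ (T : Type) (_ : Fintype T) (θ : Basis (Option T) k (Matrix J J k)), θ none = 1 ∧
    (∀ x ∈ X, ∀ i, ∃ j, r x * θ (some i) * r x⁻¹ = θ (some j)) ∧
    ∀ i, ∃ x ∈ X, r x * θ (some i) ≠ θ (some i) * r x

/-- `M_J(k) = k ⊕ (free D/Q-module)` under conjugation by `r`, `Q` acting trivially -/
def EndoTriv {k D J : Type} [Field k] [CommGroup D] [Fintype J] [DecidableEq J]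
    (r : D →* Matrix J J k) (Q : Subgroup D) : Prop :=
  (∀ q ∈ Q, r q = 1) ∧ (Fintype.card J : k) ≠ 0 ∧
  ∃ (T : Type) (_ : Fintype T) (θ : Basis (Option T) k (Matrix J J k)), θ none = 1 ∧
    (∀ x i, ∃ j, r x * θ (some i) * r x⁻¹ = θ (some j)) ∧
    ∀ x, x ∉ Q → ∀ i, r x * θ (some i) ≠ θ (some i) * r x

/-! ## Modules -/

/-- MODULE CNTI: the count is the dimension of the Brauer quotient. -/
def CNTI : Prop := ∀ (p : ℕ) [Fact p.Prime] (k : Type) [Field k] [CharP k p]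
  (D : Type) [CommGroup D] [Finite D], IsPGroup p D → ∀ (Λ : Type) [Ring Λ] [Algebra k Λ]
  (A : PX k D Λ) (X : Subgroup D),
  A.cnt X + finrank k (A.KA X) = finrank k (Subalgebra.toSubmodule (A.CA X))

/-- MODULE CUTP: a corner of an algebra with a `D × D`-stable basis has a `D × D`-stable basis
(summands of permutation modules of the `p`-group `D × D`). -/
def CUTP : Prop := ∀ (p : ℕ) [Fact p.Prime] (k : Type) [Field k] [CharP k p]
  (D : Type) [CommGroup D] [Finite D], IsPGroup p D → ∀ (R : Type) [Ring R] [Algebra k R]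
  (A : PX k D R) (j : R), j * j = j → (∀ x, A.u x * j = j * A.u x) →
  ∃ (Λ' : Type) (_ : Ring Λ') (_ : Algebra k Λ') (v : Λ' →ₗ[k] R) (A' : PX k D Λ'),
    Cor j v ∧ (∀ x, v (A'.u x) = A.u x * j) ∧ (∀ a, A'.t a = A.t (v a)) ∧
    ∀ i', ∃ i, ∀ x y, (A'.u x * A'.b i' = A'.b i' * A'.u y ↔ A.u x * A.b i = A.b i * A.u y)

/-- MODULE CUTC: counts do not grow in corners (from CNTI). -/
def CUTC : Prop := ∀ (p : ℕ) [Fact p.Prime] (k : Type) [Field k] [CharP k p]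
  (D : Type) [CommGroup D] [Finite D], IsPGroup p D → ∀ (R Λ' : Type) [Ring R] [Algebra k R]
  [Ring Λ'] [Algebra k Λ'] (A : PX k D R) (A' : PX k D Λ') (j : R) (v : Λ' →ₗ[k] R),
  j * j = j → (∀ x, A.u x * j = j * A.u x) → Cor j v → (∀ x, v (A'.u x) = A.u x * j) →
  (∀ a, A'.t a = A.t (v a)) → ∀ X : Subgroup D, A'.cnt X ≤ A.cnt X

/-- MODULE ESYM: counts are `τ`-invariant (from CNTI). -/
def ESYM : Prop := ∀ (p : ℕ) [Fact p.Prime] (k : Type) [Field k] [CharP k p]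
  (D : Type) [CommGroup D] [Finite D] (τ : MulAut D) (e : ℕ) [NeZero e], TW p D τ e →
  ∀ (Λ : Type) [Ring Λ] [Algebra k Λ] (A : AX k D Λ τ e) (X : Subgroup D) (i : ℕ),
  A.cnt (X.map ((τ ^ i : MulAut D) : D →* D)) = A.cnt X

/-- MODULE BAR: the local quotients. -/
def BAR : Prop := ∀ (p : ℕ) [Fact p.Prime] (k : Type) [Field k] [IsAlgClosed k] [CharP k p]
  (D : Type) [CommGroup D] [Finite D] (τ : MulAut D) (e : ℕ) [NeZero e], TW p D τ e →
  ∀ (Λ : Type) [Ring Λ] [Algebra k Λ] (A : AX k D Λ τ e) (Q : Subgroup D), Q ≠ ⊥ →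
  ∃ (Λ₁ : Type) (_ : Ring Λ₁) (_ : Algebra k Λ₁) (A₁ : AX k (D ⧸ Q) Λ₁ 1 1)
    (π : A.CA Q →ₐ[k] Λ₁), Bar A Q A₁ π

/-- MODULE END1: if all nontrivial subgroups are good then the complement of `kΓ` is projective
(Higman form). -/
def END1 : Prop := ∀ (p : ℕ) [Fact p.Prime] (k : Type) [Field k] [IsAlgClosed k] [CharP k p]
  (D : Type) [CommGroup D] [Finite D] [Nontrivial D] (τ : MulAut D) (e : ℕ) [NeZero e],
  TW p D τ e → ∀ (Λ : Type) [Ring Λ] [Algebra k Λ] (A : AX k D Λ τ e), A.AllGood →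
  ∀ (Γ : Type) [Group Γ] [Fintype Γ] (i : D →* Γ) (g : Γ), GX D Γ τ e i g →
  ∃ (ι : MonoidAlgebra k Γ →ₐ[k] Λ) (ρ : Λ →ₗ[k] MonoidAlgebra k Γ) (θ : Λ →ₗ[k] Λ),
    Rel (MonoidAlgebra.of k Γ) ι ρ θ ∧ (∀ x, ι (MonoidAlgebra.of k Γ (i x)) = A.u x) ∧
    ι (MonoidAlgebra.of k Γ g) = A.n ∧ ∀ a, A.t (ι (ρ a)) = A.t a

/-- MODULE SEPM: separability from the Higman form and the form. -/
def SEPM : Prop := ∀ (k Γ B : Type) [Field k] [Group Γ] [Fintype Γ] [Ring B] [Algebra k B]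
  [FiniteDimensional k B] (ι : MonoidAlgebra k Γ →ₐ[k] B) (ρ : B →ₗ[k] MonoidAlgebra k Γ)
  (θ : B →ₗ[k] B) (t : B →ₗ[k] k), Rel (MonoidAlgebra.of k Γ) ι ρ θ →
  (Fintype.card Γ : k) = 0 → (∀ a b, t (a * b) = t (b * a)) →
  (∀ a, (∀ b, t (a * b) = 0) → a = 0) → (∀ a, t (ι (ρ a)) = t a) → ZLoc B →
  ∃ (m : ℕ) (s r : Fin m → B), (∑ i, s i * r i = 1) ∧
    ∀ b : B, (∑ i, (b * s i) ⊗ₜ[k] r i) - (∑ i, s i ⊗ₜ[k] (r i * b)) ∈
      Submodule.span k {z : B ⊗[k] B | ∃ (x y : B) (h : MonoidAlgebra k Γ),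
        z = (x * ι h) ⊗ₜ[k] y - x ⊗ₜ[k] (ι h * y)}

/-- the relative data of `END1` + `SEPM`, as `KData` -/
def ENDP : Prop := ∀ (p : ℕ) [Fact p.Prime] (k : Type) [Field k] [IsAlgClosed k] [CharP k p]
  (D : Type) [CommGroup D] [Finite D] [Nontrivial D] (τ : MulAut D) (e : ℕ) [NeZero e],
  TW p D τ e → ∀ (Λ : Type) [Ring Λ] [Algebra k Λ] (A : AX k D Λ τ e), A.AllGood →
  ∀ (Γ : Type) [Group Γ] [Fintype Γ] (i : D →* Γ) (g : Γ), GX D Γ τ e i g →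
  ∃ K : KData k (MonoidAlgebra k Γ) Λ Γ, K.γ = MonoidAlgebra.of k Γ ∧
    (∀ x, K.ι (MonoidAlgebra.of k Γ (i x)) = A.u x) ∧
    K.ι (MonoidAlgebra.of k Γ g) = A.n ∧ (∀ a, K.τ a = A.t a) ∧ ZLoc Λ

/-- MODULE FREEM: a module of a `p`-group whose fixed points are norms is free. -/
def FREEM : Prop := ∀ (p : ℕ) [Fact p.Prime] (k : Type) [Field k] [CharP k p]
  (P : Type) [Group P] [Fintype P], IsPGroup p P → ∀ (M : Type) [AddCommGroup M] [Module k M]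
  [FiniteDimensional k M] (r : P →* Module.End k M),
  (∀ m, (∀ x, r x m = m) → ∃ m', m = ∑ x, r x m') →
  (∃ h : Module.End k M, ∀ m, m = ∑ x, r x (h (r x⁻¹ m))) ∧
  ∃ (T : Type) (_ : Fintype T) (c : Basis (T × P) k M), ∀ t x y, r x (c (t, y)) = c (t, x * y)

/-- MODULE HOMM: restriction to `kP` is full modulo traces. -/
def HOMM : Prop := ∀ (k P Λ : Type) [Field k] [CommGroup P] [Fintype P] [Ring Λ] [Algebra k Λ]
  (K : KData k (MonoidAlgebra k P) Λ P), K.γ = MonoidAlgebra.of k P →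
  ∀ (S S' : Type) [AddCommGroup S] [Module k S] [AddCommGroup S'] [Module k S']
  (φ : Λ →ₐ[k] Module.End k S) (φ' : Λ →ₐ[k] Module.End k S') (f : S →ₗ[k] S'),
  (∀ x : P, ∀ v, f (φ (K.ι (K.γ x)) v) = φ' (K.ι (K.γ x)) (f v)) →
  ∃ g F : S →ₗ[k] S', (∀ a v, g (φ a v) = φ' a (g v)) ∧
    ∀ v, f v = g v + ∑ x : P, φ' (K.ι (K.γ x)) (F (φ (K.ι (K.γ x⁻¹)) v))

/-- MODULE Y1: the unique simple module, and it is endotrivial on `P`. -/
def Y1 : Prop := ∀ (p : ℕ) [Fact p.Prime] (k : Type) [Field k] [IsAlgClosed k] [CharP k p]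
  (P : Type) [CommGroup P] [Finite P] [Nontrivial P], IsPGroup p P →
  ∀ (Λ : Type) [Ring Λ] [Algebra k Λ] (A : AX k P Λ 1 1), A.AllGood →
  ∃ (d : ℕ) (φ : Λ →ₐ[k] Matrix (Fin d) (Fin d) k), Function.Surjective φ ∧
    (∀ a, φ a = 0 → IsNilpotent a) ∧
    EndoTriv ((φ : Λ →* Matrix (Fin d) (Fin d) k).comp A.u) ⊥

/-- MODULE Y2: if the simple module is a summand of `End T = k ⊕ free`, then `Λ = kP`. -/
def Y2 : Prop := ∀ (p : ℕ) [Fact p.Prime] (k : Type) [Field k] [IsAlgClosed k] [CharP k p]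
  (P : Type) [CommGroup P] [Finite P] [Nontrivial P], IsPGroup p P →
  ∀ (Λ : Type) [Ring Λ] [Algebra k Λ] (A : AX k P Λ 1 1), A.AllGood →
  ∀ (V : Type) [AddCommGroup V] [Module k V] [FiniteDimensional k V] [Nontrivial V]
  (φ : Λ →ₐ[k] Module.End k V), Function.Surjective φ →
  ∀ (J : Type) [Fintype J] [DecidableEq J] (r : P →* Matrix J J k), EndoTriv r ⊥ →
  ∀ (α : V →ₗ[k] Matrix J J k) (β : Matrix J J k →ₗ[k] V), (∀ v, β (α v) = v) →
  (∀ x v, α (φ (A.u x) v) = r x * α v * r x⁻¹) →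
  (∀ x M, β (r x * M * r x⁻¹) = φ (A.u x) (β M)) → A.cnt ⊥ = Nat.card P

/-- MODULE KAP: stability of the simple module under the stabiliser of `Q`. -/
def KAP : Prop := ∀ (p : ℕ) [Fact p.Prime] (k : Type) [Field k] [IsAlgClosed k] [CharP k p]
  (D : Type) [CommGroup D] [Finite D] (τ : MulAut D) (e : ℕ) [NeZero e], TW p D τ e →
  ∀ (Λ Λ₁ : Type) [Ring Λ] [Algebra k Λ] [Ring Λ₁] [Algebra k Λ₁] (A : AX k D Λ τ e)
  (Q : Subgroup D) (A₁ : AX k (D ⧸ Q) Λ₁ 1 1) (π : A.CA Q →ₐ[k] Λ₁), Bar A Q A₁ π →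
  ∀ (d : ℕ) (φ : Λ₁ →ₐ[k] Matrix (Fin d) (Fin d) k), Function.Surjective φ →
  (∀ a, φ a = 0 → IsNilpotent a) → ∀ m : ℕ, (∀ x ∈ Q, (τ ^ m) x ∈ Q) →
  ∃ κ : Matrix (Fin d) (Fin d) k, IsUnit κ ∧
    ∀ x : D, κ * φ (A₁.u (QuotientGroup.mk x)) = φ (A₁.u (QuotientGroup.mk ((τ ^ m) x))) * κ

/-- MODULE WMOD: the tensor product of the `τ`-conjugates of an endotrivial `D/Q`-module. -/
def WMOD : Prop := ∀ (p : ℕ) [Fact p.Prime] (k : Type) [Field k] [IsAlgClosed k] [CharP k p]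
  (D : Type) [CommGroup D] [Finite D] (τ : MulAut D) (e : ℕ) [NeZero e], TW p D τ e →
  ∀ (Q : Subgroup D), Q ≠ ⊥ → Q ≠ ⊤ → ∀ (d : ℕ) (r : D →* Matrix (Fin d) (Fin d) k),
  EndoTriv r Q → (∀ m : ℕ, (∀ x ∈ Q, (τ ^ m) x ∈ Q) →
    ∃ κ : Matrix (Fin d) (Fin d) k, IsUnit κ ∧ ∀ x, κ * r x = r ((τ ^ m) x) * κ) →
  ∃ (J : Type) (_ : Fintype J) (_ : DecidableEq J) (r₁ : D →* Matrix J J k)
    (w : WD k D (Fin d × J) τ e),
    (∀ x a b, w.r x a b = r x a.1 b.1 * r₁ x a.2 b.2) ∧ OneFixed r₁ Q ∧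
    (Fintype.card J : k) ≠ 0 ∧
    ∀ X : Subgroup D, (∀ i : ℕ, ¬ X ≤ Q.map ((τ ^ i : MulAut D) : D →* D)) → w.cnt X = 1

/-- the matrix algebra over `Λ` with the diagonal action -/
structure MatX {k D Λ J : Type} [Field k] [CommGroup D] [Ring Λ] [Algebra k Λ] [Fintype J]
    [DecidableEq J] {τ : MulAut D} {e : ℕ} (A : AX k D Λ τ e) (w : WD k D J τ e)
    (B : PX k D (Matrix J J Λ)) : Prop where
  u : ∀ x a b, B.u x a b = w.r x a b • A.u x
  t : ∀ M, B.t M = ∑ a, A.t (M a a)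
  tw : ∀ i, ∃ s : ℕ, ∀ x y, B.u x * B.b i = B.b i * B.u y → y = (τ ^ s) x
  cnt : ∀ X, B.cnt X = A.cnt X * w.cnt X

/-- MODULE MATM: the twisted basis of `M_J(Λ)`. -/
def MATM : Prop := ∀ (p : ℕ) [Fact p.Prime] (k : Type) [Field k] [CharP k p]
  (D : Type) [CommGroup D] [Finite D] (τ : MulAut D) (e : ℕ) [NeZero e], TW p D τ e →
  ∀ (Λ : Type) [Ring Λ] [Algebra k Λ] (A : AX k D Λ τ e) (J : Type) [Fintype J]
  [DecidableEq J] (w : WD k D J τ e), ∃ B : PX k D (Matrix J J Λ), MatX A w B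

/-- MODULE PRIM: a primitive idempotent of local type and the new `n`. -/
def PRIM : Prop := ∀ (p : ℕ) [Fact p.Prime] (k : Type) [Field k] [IsAlgClosed k] [CharP k p]
  (D : Type) [CommGroup D] [Finite D] (τ : MulAut D) (e : ℕ) [NeZero e], TW p D τ e →
  ∀ (R : Type) [Ring R] [Algebra k R] (B : PX k D R), B.cnt ⊤ = Nat.card D →
  (∀ i x, B.u x * B.b i = B.b i → x = 1) →
  ∀ n : R, IsUnit n → (∀ x, n * B.u x = B.u (τ x) * n) →
  ∃ j n' : R, j * j = j ∧ (∀ x, B.u x * j = j * B.u x) ∧ j ∉ B.KA ⊤ ∧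
    (∀ a, j * a * j = a → (∀ x, B.u x * a = a * B.u x) →
      (∃ b, j * b * j = b ∧ a * b = j ∧ b * a = j) ∨ IsNilpotent a) ∧
    j * n' * j = n' ∧ n' ^ e * j = j ∧ ∀ x, n' * B.u x = B.u (τ x) * n'

/-- MODULE LBC: the number of simple modules does not grow in corners. -/
def LBC : Prop := ∀ (k : Type) [Field k] [IsAlgClosed k] (R Λ' : Type) [Ring R] [Algebra k R]
  [FiniteDimensional k R] [Ring Λ'] [Algebra k Λ'] (j : R) (v : Λ' →ₗ[k] R), j * j = j →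
  Cor j v → lB k Λ' ≤ lB k R

/-- MODULE LBM: matrix algebras. -/
def LBM : Prop := ∀ (k : Type) [Field k] (Λ : Type) [Ring Λ] [Algebra k Λ]
  [FiniteDimensional k Λ] (J : Type) [Fintype J] [DecidableEq J],
  lB k (Matrix J J Λ) ≤ lB k Λ

/-- MODULE CUTM: the new algebra (from CUTP, CUTC, PRIM, MATM, LBC, LBM). -/
def CUTM : Prop := ∀ (p : ℕ) [Fact p.Prime] (k : Type) [Field k] [IsAlgClosed k] [CharP k p]
  (D : Type) [CommGroup D] [Finite D] (τ : MulAut D) (e : ℕ) [NeZero e], TW p D τ e →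
  ∀ (Λ : Type) [Ring Λ] [Algebra k Λ] (A : AX k D Λ τ e) (J : Type) [Fintype J]
  [DecidableEq J] (w : WD k D J τ e) (B : PX k D (Matrix J J Λ)), MatX A w B → w.cnt ⊤ = 1 →
  ∃ (Λ' : Type) (_ : Ring Λ') (_ : Algebra k Λ') (v : Λ' →ₗ[k] Matrix J J Λ)
    (A' : AX k D Λ' τ e) (j : Matrix J J Λ), j * j = j ∧ (∀ x, B.u x * j = j * B.u x) ∧
    Cor j v ∧ (∀ x, v (A'.u x) = B.u x * j) ∧ (∀ a, A'.t a = B.t (v a)) ∧
    lB k Λ' ≤ lB k Λ ∧ ∀ X : Subgroup D, Nat.card D ≤ A'.cnt X ∧ A'.cnt X ≤ A.cnt X * w.cnt X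

/-- MODULE PSI: the simple module of the new local quotient at `Q`. -/
def PSI : Prop := ∀ (p : ℕ) [Fact p.Prime] (k : Type) [Field k] [IsAlgClosed k] [CharP k p]
  (D : Type) [CommGroup D] [Finite D] (τ : MulAut D) (e : ℕ) [NeZero e], TW p D τ e →
  ∀ (Λ Λ₁ : Type) [Ring Λ] [Algebra k Λ] [Ring Λ₁] [Algebra k Λ₁] (A : AX k D Λ τ e)
  (Q : Subgroup D), Q ≠ ⊥ →
  ∀ (A₁ : AX k (D ⧸ Q) Λ₁ 1 1) (π : A.CA Q →ₐ[k] Λ₁), Bar A Q A₁ π →
  ∀ (d : ℕ) (φ : Λ₁ →ₐ[k] Matrix (Fin d) (Fin d) k), Function.Surjective φ →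
  (∀ a, φ a = 0 → IsNilpotent a) →
  ∀ (J : Type) [Fintype J] [DecidableEq J] (r₁ : D →* Matrix J J k)
  (w : WD k D (Fin d × J) τ e),
  (∀ x a b, w.r x a b = (φ (A₁.u (QuotientGroup.mk x⁻¹))) b.1 a.1 * r₁ x a.2 b.2) →
  OneFixed r₁ Q → (Fintype.card J : k) ≠ 0 →
  ∀ (B : PX k D (Matrix (Fin d × J) (Fin d × J) Λ)), MatX A w B →
  ∀ (Λ' : Type) [Ring Λ'] [Algebra k Λ'] (v : Λ' →ₗ[k] Matrix (Fin d × J) (Fin d × J) Λ)
  (A' : AX k D Λ' τ e) (j : Matrix (Fin d × J) (Fin d × J) Λ), j * j = j →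
  (∀ x, B.u x * j = j * B.u x) → Cor j v → (∀ x, v (A'.u x) = B.u x * j) →
  (∀ a, A'.t a = B.t (v a)) →
  ∀ (Λ₂ : Type) [Ring Λ₂] [Algebra k Λ₂] (A₂ : AX k (D ⧸ Q) Λ₂ 1 1)
  (π₂ : A'.CA Q →ₐ[k] Λ₂), Bar A' Q A₂ π₂ →
  ∃ (V : Type) (_ : AddCommGroup V) (_ : Module k V) (_ : FiniteDimensional k V)
    (_ : Nontrivial V) (φ₂ : Λ₂ →ₐ[k] Module.End k V)
    (α : V →ₗ[k] Matrix (Fin d) (Fin d) k) (β : Matrix (Fin d) (Fin d) k →ₗ[k] V),
    Function.Surjective φ₂ ∧ (∀ v, β (α v) = v) ∧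
    (∀ x v, α (φ₂ (A₂.u x) v) = φ (A₁.u x) * α v * φ (A₁.u x⁻¹)) ∧
    ∀ x M, β (φ (A₁.u x) * M * φ (A₁.u x⁻¹)) = φ₂ (A₂.u x) (β M)

/-- STEP: one more good subgroup. -/
def STEP : Prop := ∀ (p : ℕ) [Fact p.Prime] (k : Type) [Field k] [IsAlgClosed k] [CharP k p]
  (D : Type) [CommGroup D] [Finite D] (τ : MulAut D) (e : ℕ) [NeZero e], TW p D τ e →
  ∀ (Λ : Type) [Ring Λ] [Algebra k Λ] (A : AX k D Λ τ e) (Q : Subgroup D), Q ≠ ⊥ →
  (∀ R : Subgroup D, Q < R → A.cnt R = Nat.card D) → A.cnt Q ≠ Nat.card D →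
  ∃ (Λ' : Type) (_ : Ring Λ') (_ : Algebra k Λ') (A' : AX k D Λ' τ e), lB k Λ' ≤ lB k Λ ∧
    (∀ X : Subgroup D, X ≠ ⊥ → A.cnt X = Nat.card D → A'.cnt X = Nat.card D) ∧
    A'.cnt Q = Nat.card D

/-- MODULE GRPD: the semidirect product. -/
def GRPD : Prop := ∀ (p : ℕ) [Fact p.Prime] (D : Type) [CommGroup D] [Finite D] [Nontrivial D]
  (τ : MulAut D) (e : ℕ) [NeZero e], TW p D τ e →
  ∃ (Γ : Type) (_ : Group Γ) (_ : Fintype Γ) (i : D →* Γ) (g : Γ), GX D Γ τ e i g ∧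
    FreeCyc p Γ e

/-- MODULE START: the source algebra of a block with abelian defect group `D` and cyclic inertial
quotient acting freely on `D - 1`. -/
def START : Prop := ∀ (p : ℕ) [Fact p.Prime] (k : Type) [Field k] [IsAlgClosed k] [CharP k p]
  (G : Type) [Group G] [Finite G] (B : MonoidAlgebra k G), P179C.IsBlock B →
  ∀ D : Subgroup G, P179C.IsDefectGroup B D → (∀ x ∈ D, ∀ y ∈ D, x * y = y * x) → D ≠ ⊥ →
  ∀ b : MonoidAlgebra k (Subgroup.centralizer (D : Set G)), P179C.IsBlock b →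
  P179C.InducesTo b B → (∀ u ∈ D, u ≠ 1 → u ∈ P179B.regularElements D b) →
  (∃ t ∈ P179B.inertialGroup D b, ∀ n ∈ P179B.inertialGroup D b, ∃ i : ℕ,
    t ^ i * n ∈ Subgroup.centralizer (D : Set G)) →
  ∃ (D' : Type) (_ : CommGroup D') (_ : Finite D') (_ : Nontrivial D') (τ : MulAut D')
    (Λ : Type) (_ : Ring Λ) (_ : Algebra k Λ) (_ : AX k D' Λ τ (P179B.inertialIndex D b)),
    P179B.inertialIndex D b ≠ 0 ∧ TW p D' τ (P179B.inertialIndex D b) ∧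
    lB k Λ ≤ P179C.numSimpleIn B

end Vale.P179.Allb
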