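import Vale.Agent.P179.Allb.Defs

/-!
# ALLB (P179): the modules without freeness of `τ` on `D - 1`

The same statements as in `Allb.Defs`, for an automorphism `τ` of order prime to `p` (`TW0`); the
subgroup `Q` in `BAR` and `STEP` is acted on faithfully (`Fr`).
-/

namespace Vale.P179.Allb

open Module Vale.P179.Sgn Vale.P179.H445
open scoped TensorProduct

/-- the powers of `τ` which centralise `Q` are trivial -/
def Fr {D : Type} [CommGroup D] (τ : MulAut D) (e : ℕ) (Q : Subgroup D) : Prop :=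
  ∀ i : ℕ, (∀ q ∈ Q, (τ ^ i) q = q) → e ∣ i

theorem TW.fr {p : ℕ} {D : Type} [CommGroup D] {τ : MulAut D} {e : ℕ} (h : TW p D τ e)
    {Q : Subgroup D} (hQ : Q ≠ ⊥) : Fr τ e Q := by
  intro i hi
  obtain ⟨q, hq⟩ := (Subgroup.ne_bot_iff_exists_ne_one).1 hQ
  exact h.free i q (fun h => hq (Subtype.ext h)) (hi q q.2)

theorem Fr.mono {D : Type} [CommGroup D] {τ : MulAut D} {e : ℕ} {Q R : Subgroup D}
    (h : Fr τ e Q) (hQR : Q ≤ R) : Fr τ e R := fun i hi => h i fun q hq => hi q (hQR hq)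

def ESYMR : Prop := ∀ (p : ℕ) [Fact p.Prime] (k : Type) [Field k] [CharP k p]
  (D : Type) [CommGroup D] [Finite D] (τ : MulAut D) (e : ℕ) [NeZero e], TW0 p D τ e →
  ∀ (Λ : Type) [Ring Λ] [Algebra k Λ] (A : AX k D Λ τ e) (X : Subgroup D) (i : ℕ),
  A.cnt (X.map ((τ ^ i : MulAut D) : D →* D)) = A.cnt X

def BARR : Prop := ∀ (p : ℕ) [Fact p.Prime] (k : Type) [Field k] [IsAlgClosed k] [CharP k p]
  (D : Type) [CommGroup D] [Finite D] (τ : MulAut D) (e : ℕ) [NeZero e], TW0 p D τ e →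
  ∀ (Λ : Type) [Ring Λ] [Algebra k Λ] (A : AX k D Λ τ e) (Q : Subgroup D), Fr τ e Q →
  ∃ (Λ₁ : Type) (_ : Ring Λ₁) (_ : Algebra k Λ₁) (A₁ : AX k (D ⧸ Q) Λ₁ 1 1)
    (π : A.CA Q →ₐ[k] Λ₁), Bar A Q A₁ π

def KAPR : Prop := ∀ (p : ℕ) [Fact p.Prime] (k : Type) [Field k] [IsAlgClosed k] [CharP k p]
  (D : Type) [CommGroup D] [Finite D] (τ : MulAut D) (e : ℕ) [NeZero e], TW0 p D τ e →
  ∀ (Λ Λ₁ : Type) [Ring Λ] [Algebra k Λ] [Ring Λ₁] [Algebra k Λ₁] (A : AX k D Λ τ e)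
  (Q : Subgroup D) (A₁ : AX k (D ⧸ Q) Λ₁ 1 1) (π : A.CA Q →ₐ[k] Λ₁), Bar A Q A₁ π →
  ∀ (d : ℕ) (φ : Λ₁ →ₐ[k] Matrix (Fin d) (Fin d) k), Function.Surjective φ →
  (∀ a, φ a = 0 → IsNilpotent a) → ∀ m : ℕ, (∀ x ∈ Q, (τ ^ m) x ∈ Q) →
  ∃ κ : Matrix (Fin d) (Fin d) k, IsUnit κ ∧
    ∀ x : D, κ * φ (A₁.u (QuotientGroup.mk x)) = φ (A₁.u (QuotientGroup.mk ((τ ^ m) x))) * κ

def WMODR : Prop := ∀ (p : ℕ) [Fact p.Prime] (k : Type) [Field k] [IsAlgClosed k] [CharP k p]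
  (D : Type) [CommGroup D] [Finite D] (τ : MulAut D) (e : ℕ) [NeZero e], TW0 p D τ e →
  ∀ (Q : Subgroup D), Q ≠ ⊤ → ∀ (d : ℕ) (r : D →* Matrix (Fin d) (Fin d) k),
  EndoTriv r Q → (∀ m : ℕ, (∀ x ∈ Q, (τ ^ m) x ∈ Q) →
    ∃ κ : Matrix (Fin d) (Fin d) k, IsUnit κ ∧ ∀ x, κ * r x = r ((τ ^ m) x) * κ) →
  ∃ (J : Type) (_ : Fintype J) (_ : DecidableEq J) (r₁ : D →* Matrix J J k)
    (w : WD k D (Fin d × J) τ e),
    (∀ x a b, w.r x a b = r x a.1 b.1 * r₁ x a.2 b.2) ∧ OneFixed r₁ Q ∧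
    (Fintype.card J : k) ≠ 0 ∧
    ∀ X : Subgroup D, (∀ i : ℕ, ¬ X ≤ Q.map ((τ ^ i : MulAut D) : D →* D)) → w.cnt X = 1

def MATMR : Prop := ∀ (p : ℕ) [Fact p.Prime] (k : Type) [Field k] [CharP k p]
  (D : Type) [CommGroup D] [Finite D] (τ : MulAut D) (e : ℕ) [NeZero e], TW0 p D τ e →
  ∀ (Λ : Type) [Ring Λ] [Algebra k Λ] (A : AX k D Λ τ e) (J : Type) [Fintype J]
  [DecidableEq J] (w : WD k D J τ e), ∃ B : PX k D (Matrix J J Λ), MatX A w B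

def PRIMR : Prop := ∀ (p : ℕ) [Fact p.Prime] (k : Type) [Field k] [IsAlgClosed k] [CharP k p]
  (D : Type) [CommGroup D] [Finite D] (τ : MulAut D) (e : ℕ) [NeZero e], TW0 p D τ e →
  ∀ (R : Type) [Ring R] [Algebra k R] (B : PX k D R), B.cnt ⊤ = Nat.card D →
  (∀ i x, B.u x * B.b i = B.b i → x = 1) →
  ∀ n : R, IsUnit n → (∀ x, n * B.u x = B.u (τ x) * n) →
  ∃ j n' : R, j * j = j ∧ (∀ x, B.u x * j = j * B.u x) ∧ j ∉ B.KA ⊤ ∧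
    (∀ a, j * a * j = a → (∀ x, B.u x * a = a * B.u x) →
      (∃ b, j * b * j = b ∧ a * b = j ∧ b * a = j) ∨ IsNilpotent a) ∧
    j * n' * j = n' ∧ n' ^ e * j = j ∧ ∀ x, n' * B.u x = B.u (τ x) * n'

def CUTMR : Prop := ∀ (p : ℕ) [Fact p.Prime] (k : Type) [Field k] [IsAlgClosed k] [CharP k p]
  (D : Type) [CommGroup D] [Finite D] (τ : MulAut D) (e : ℕ) [NeZero e], TW0 p D τ e →
  ∀ (Λ : Type) [Ring Λ] [Algebra k Λ] (A : AX k D Λ τ e) (J : Type) [Fintype J]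
  [DecidableEq J] (w : WD k D J τ e) (B : PX k D (Matrix J J Λ)), MatX A w B → w.cnt ⊤ = 1 →
  ∃ (Λ' : Type) (_ : Ring Λ') (_ : Algebra k Λ') (v : Λ' →ₗ[k] Matrix J J Λ)
    (A' : AX k D Λ' τ e) (j : Matrix J J Λ), j * j = j ∧ (∀ x, B.u x * j = j * B.u x) ∧
    Cor j v ∧ (∀ x, v (A'.u x) = B.u x * j) ∧ (∀ a, A'.t a = B.t (v a)) ∧
    lB k Λ' ≤ lB k Λ ∧ ∀ X : Subgroup D, Nat.card D ≤ A'.cnt X ∧ A'.cnt X ≤ A.cnt X * w.cnt X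

def PSIR : Prop := ∀ (p : ℕ) [Fact p.Prime] (k : Type) [Field k] [IsAlgClosed k] [CharP k p]
  (D : Type) [CommGroup D] [Finite D] (τ : MulAut D) (e : ℕ) [NeZero e], TW0 p D τ e →
  ∀ (Λ Λ₁ : Type) [Ring Λ] [Algebra k Λ] [Ring Λ₁] [Algebra k Λ₁] (A : AX k D Λ τ e)
  (Q : Subgroup D), Fr τ e Q →
  ∀ (A₁ : AX k (D ⧸ Q) Λ₁ 1 1) (π : A.CA Q →ₐ[k] Λ₁), Bar A Q A₁ π →
  ∀ (d : ℕ) (φ : Λ₁ →ₐ[k] Matrix (Fin d) (Fin d) k), Function.Surjective φ →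
  (∀ a, φ a = 0 → IsNilpotent a) →
  ∀ (J : Type) [Fintype J] [DecidableEq J] (r₁ : D →* Matrix J J k)
  (w : WD k D (Fin d × J) τ e),
  (∀ x a b, w.r x a b = (φ (A₁.u (QuotientGroup.mk x⁻¹))) b.1 a.1 * r₁ x a.2 b.2) →
  OneFixed r₁ Q → (Fintype.card J : k) ≠ 0 →
  ∀ (B : PX k D (Matrix (Fin d × J) (Fin d × J) Λ)), MatX A w B →
  ∀ (Λ' : Type) [Ring Λ'] [Algebra k Λ'] (v : Λ' →ₗ[k] Matrix (Fin d × J) (Fin d × J) Λ)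
  (A' : AX k D Λ' τ e) (j : Matrix (Fin d × J) (Fin d × J) Λ), j * j = j →
  (∀ x, B.u x * j = j * B.u x) → Cor j v → (∀ x, v (A'.u x) = B.u x * j) →
  (∀ a, A'.t a = B.t (v a)) →
  ∀ (Λ₂ : Type) [Ring Λ₂] [Algebra k Λ₂] (A₂ : AX k (D ⧸ Q) Λ₂ 1 1)
  (π₂ : A'.CA Q →ₐ[k] Λ₂), Bar A' Q A₂ π₂ →
  ∃ (V : Type) (_ : AddCommGroup V) (_ : Module k V) (_ : FiniteDimensional k V)
    (_ : Nontrivial V) (φ₂ : Λ₂ →ₐ[k] Module.End k V)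
    (α : V →ₗ[k] Matrix (Fin d) (Fin d) k) (β : Matrix (Fin d) (Fin d) k →ₗ[k] V),
    Function.Surjective φ₂ ∧ (∀ v, β (α v) = v) ∧
    (∀ x v, α (φ₂ (A₂.u x) v) = φ (A₁.u x) * α v * φ (A₁.u x⁻¹)) ∧
    ∀ x M, β (φ (A₁.u x) * M * φ (A₁.u x⁻¹)) = φ₂ (A₂.u x) (β M)

/-- STEP: one more good subgroup, among those acted on faithfully. -/
def STEPR : Prop := ∀ (p : ℕ) [Fact p.Prime] (k : Type) [Field k] [IsAlgClosed k] [CharP k p]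
  (D : Type) [CommGroup D] [Finite D] (τ : MulAut D) (e : ℕ) [NeZero e], TW0 p D τ e →
  ∀ (Λ : Type) [Ring Λ] [Algebra k Λ] (A : AX k D Λ τ e) (Q : Subgroup D), Fr τ e Q →
  (∀ R : Subgroup D, Q < R → A.cnt R = Nat.card D) → A.cnt Q ≠ Nat.card D →
  ∃ (Λ' : Type) (_ : Ring Λ') (_ : Algebra k Λ') (A' : AX k D Λ' τ e), lB k Λ' ≤ lB k Λ ∧
    (∀ X : Subgroup D, A.cnt X = Nat.card D → A'.cnt X = Nat.card D) ∧
    A'.cnt Q = Nat.card D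

/-- The source algebra of a block with abelian defect group `D ≠ 1` and cyclic inertial
quotient. -/
def STARTR : Prop := ∀ (p : ℕ) [Fact p.Prime] (k : Type) [Field k] [IsAlgClosed k] [CharP k p]
  (G : Type) [Group G] [Finite G] (B : MonoidAlgebra k G), P179C.IsBlock B →
  ∀ D : Subgroup G, P179C.IsDefectGroup B D → (∀ x ∈ D, ∀ y ∈ D, x * y = y * x) → D ≠ ⊥ →
  ∀ b : MonoidAlgebra k (Subgroup.centralizer (D : Set G)), P179C.IsBlock b →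
  P179C.InducesTo b B → ∀ t ∈ P179B.inertialGroup D b, (∀ n ∈ P179B.inertialGroup D b, ∃ i : ℕ,
    t ^ i * n ∈ Subgroup.centralizer (D : Set G)) →
  ∃ (D' : Type) (_ : CommGroup D') (_ : Finite D') (_ : Nontrivial D') (τ : MulAut D')
    (Λ : Type) (_ : Ring Λ) (_ : Algebra k Λ) (_ : AX k D' Λ τ (P179B.inertialIndex D b))
    (f : D' ≃* D), P179B.inertialIndex D b ≠ 0 ∧ TW0 p D' τ (P179B.inertialIndex D b) ∧
    (∀ x, (f (τ x) : G) = t * f x * t⁻¹) ∧ lB k Λ ≤ P179C.numSimpleIn B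

end Vale.P179.Allb
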