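import Vale.Agent.P179.Allb.Step
import Vale.Agent.P179.Sgn.Main
import Vale.Agent.P179.H875.Cnt
import Vale.Agent.P179.H417.Cutp
import Vale.Agent.P179.H417.Bar5
import Vale.Agent.P179.H445.End5
import Vale.Agent.P179.H843.AllbSep
import Vale.Agent.P179.H580.Y1F
import Vale.Agent.P179.H175.Y2F
import Vale.Agent.P179.H300.Kap
import Vale.Agent.P179.H904.Wm3
import Vale.Agent.P179.H190.Matm
import Vale.Agent.P179.H190.Prim4
import Vale.Agent.P179.H737.CutM
import Vale.Agent.P179.H554.Psi7
import Vale.Agent.P179.H365.Grpd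
import Vale.Agent.P179.H531.St6

/-!
# ALLB (P179): the lower bound for all blocks with a free cyclic inertial quotient
-/

namespace Vale.P179.Allb

theorem endp : ENDP := Vale.Agent.P179.H843.endp_of Vale.P179.H445.End.end1

theorem y1 : Y1 := Vale.P179.H580.y1_of endp

theorem y2 : Y2 := Vale.P179.H175.y2_of endp y1

theorem cutm : CUTM :=
  Vale.P179.H737.cutm_of Vale.P179.H875.cnti Vale.P179.H417.cutp Vale.P179.H875.cutc
    Vale.P179.H190.prim

theorem step_all : STEP :=
  step Vale.P179.H417.Bar.bar y1 y2 Vale.P179.H300.kap Vale.P179.H904.wmod Vale.P179.H190.matm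
    cutm Vale.P179.H554.psi Vale.P179.H875.esym

/-- **The lower bound `e ≤ l(B)`** for all blocks with an abelian defect group `D ≠ 1` and a cyclic
inertial quotient of order `e` acting freely on `D - 1`. -/
theorem allb (p : ℕ) [Fact p.Prime] (k : Type) [Field k] [IsAlgClosed k] [CharP k p]
    (G : Type) [Group G] [Finite G] (B : MonoidAlgebra k G) (h1 : P179C.IsBlock B)
    (D : Subgroup G) (h2 : P179C.IsDefectGroup B D) (h3 : ∀ x ∈ D, ∀ y ∈ D, x * y = y * x)
    (h4 : D ≠ ⊥) (b : MonoidAlgebra k (Subgroup.centralizer (D : Set G))) (h5 : P179C.IsBlock b)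
    (h6 : P179C.InducesTo b B) (h7 : ∀ u ∈ D, u ≠ 1 → u ∈ P179B.regularElements D b)
    (h8 : ∃ t ∈ P179B.inertialGroup D b, ∀ n ∈ P179B.inertialGroup D b, ∃ i : ℕ,
      t ^ i * n ∈ Subgroup.centralizer (D : Set G)) :
    P179B.inertialIndex D b ≤ P179C.numSimpleIn B :=
  block_lower step_all endp Vale.P179.H365.grpd Vale.P179.Sgn.lower_all Vale.P179.H531.start
    p k G B h1 D h2 h3 h4 b h5 h6 h7 h8

end Vale.P179.Allb
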