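import Vale.Agent.P179.Allb.Lib
import Vale.Agent.P179.Allb.Main
import Vale.Agent.P179.H999.AllW
import Vale.Agent.P179.R2.H292.FinalF

/-!
# ALLB (P179): the final theorems in the letters of `P179B`
-/

namespace Vale.P179.Allb

open Subgroup P179H524 P179A P179C P179P P179R P179Y P179H292 P179H351 P179H843 P179H364 P179H443

open P179B (inertialIndex inertialGroup regularElements hyperfocal IsCore FreeCyclicOn
  SolvedByCyclic SolvedBlockCyclic LevelSolvedCyclic)

open scoped Classical

theorem allbl : ALLBL := allb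

theorem weq : WEQ := Vale.P179.H999.weq

variable {p : ℕ} [hp : Fact p.Prime] {k : Type} [Field k] [IsAlgClosed k] [hk : CharP k p]
  (red : integralClosure ℤ ℂ →+* k) {G : Type} [Group G] [Finite G] {B : MonoidAlgebra k G}
  {D : Subgroup G} {b : MonoidAlgebra k (centralizer (D : Set G))}

/-- **free cyclic action on `K = D` or `K = [D, T]`**: `|W_p(B)| = e ≤ l(B)`, with equality for
`p` odd -/
theorem free_cyclic_core (hB : P179B.IsBlock B) (hD : P179B.IsDefectGroup B D)
    (hab : ∀ x ∈ D, ∀ y ∈ D, x * y = y * x) (hb : P179B.IsBlock b)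
    (hbB : P179B.InducesTo b B) {K : Subgroup G} (hK : IsCore D b K)
    (hfree : ∀ u ∈ K, u ≠ 1 → u ∈ regularElements D b)
    (hcyc : ∃ t ∈ inertialGroup D b, ∀ n ∈ inertialGroup D b, ∃ i : ℕ,
      t ^ i * n ∈ centralizer (D : Set G)) :
    P179B.numWeightsIn p red B = inertialIndex D b ∧
      inertialIndex D b ≤ P179B.numSimpleIn B ∧
      (p ≠ 2 → P179B.numSimpleIn B = inertialIndex D b) := by
  have hbB' : P179C.InducesTo b B := (P179B.inducesTo_iff b B).1 hbB
  have hw : P179B.numWeightsIn p red B = inertialIndex D b := by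
    rw [P179B.numWeightsIn_eq]
    exact weq p k red G B hB D hD hab b hb hbB' hcyc
  have hTN : inertialGroup D b ≤ normalizer (D : Set G) := fun n hn => hn.1
  rcases hK with rfl | rfl
  · have hF : FreeCyclicOn K (inertialGroup K b) :=
      ⟨fun u hu hu1 s hs h => (hfree u hu hu1).2 s hs h, hcyc⟩
    refine ⟨hw, ?_, fun hp2 => ?_⟩
    · rw [P179B.numSimpleIn_eq]
      exact index_le allbl hB hD hab hb hbB' hF
    · rw [← hw, P179B.numSimpleIn_eq, P179B.numWeightsIn_eq]
      exact eq_freeCyclic red allbl weq hp2 hB hD hab hb hbB' hF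
  · rw [hyperfocal_eq] at hfree
    have hle : (⁅inertialGroup D b, D⁆ : Subgroup G) ≤ D := comm_le hTN
    have hcle : centralizer (D : Set G) ≤
        centralizer ((⁅inertialGroup D b, D⁆ : Subgroup G) : Set G) := centralizer_le hle
    have hF : FreeCyclicOn (⁅inertialGroup D b, D⁆ : Subgroup G) (inertialGroup D b) := by
      refine ⟨fun u hu hu1 s hs h => hcle ((hfree u hu hu1).2 s hs h), ?_⟩
      obtain ⟨t, ht, h⟩ := hcyc
      exact ⟨t, ht, fun n hn => (h n hn).imp fun i hi => hcle hi⟩
    refine ⟨hw, ?_, fun hp2 => ?_⟩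
    · rw [← hw, P179B.numSimpleIn_eq, P179B.numWeightsIn_eq]
      exact weights_le_hyp red allbl weq hB hD hab hb hbB' hF
    · rw [← hw]
      have hp3 : 2 < p := by
        have := hp.out.two_le
        omega
      exact eq_of_solvedByCyclic_hyp red allbl weq hp3 hB hD hab hb hbB
        (SolvedByCyclic.known (Or.inr hF))

end Vale.P179.Allb
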