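import Vale.Agent.P179.R2.H443.KnDef
import Vale.Agent.P179.R2.H292.LDefsE

/-!
# Abelian defect groups with a free cyclic action of the inertial quotient: definitions
-/

namespace P179B

open Subgroup

/-- The group `S` acts on `K` by conjugation through a cyclic group of automorphisms all of whose
elements `≠ 1` have no fixed point `≠ 1` on `K`. -/
def FreeCyclicOn {G : Type*} [Group G] (K S : Subgroup G) : Prop :=
  (∀ u ∈ K, u ≠ 1 → ∀ s ∈ S, s * u * s⁻¹ = u → s ∈ centralizer (K : Set G)) ∧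
    ∃ t ∈ S, ∀ n ∈ S, ∃ i : ℕ, t ^ i * n ∈ centralizer (K : Set G)

/-- `Known` or `FreeCyclicOn`. -/
def KnownOrCyclic (p : ℕ) {G : Type*} [Group G] (K S : Subgroup G) : Prop :=
  Known p K S ∨ FreeCyclicOn K S

/-- The recursive condition `SolvedBy` with `KnownOrCyclic` in place of `Known`. -/
inductive SolvedByCyclic (p : ℕ) {G : Type*} [Group G] : Subgroup G → Subgroup G → Prop
  | known {K S : Subgroup G} : KnownOrCyclic p K S → SolvedByCyclic p K S
  | step {K S : Subgroup G} (a j o : ℕ) (w : G) : 1 ≤ j → 1 ≤ o → w ∈ K →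
    (∀ i : ℕ, (∃ d ∈ K, w ^ i = d ^ p ^ j) ↔ o ∣ i) →
    (∀ n ∈ S, (∃ d ∈ K, n * w * n⁻¹ * w⁻¹ = d ^ p ^ j) → n ∈ centralizer (K : Set G)) →
    (centralizer (K : Set G)).relIndex S * Nat.card K < p ^ (2 * j) *
      Nat.card {u : G // u ∈ K ∧ ∀ n ∈ S, n * u * n⁻¹ = u → n ∈ centralizer (K : Set G)} →
    Nat.card K * p ≤ p ^ (a + 1) * (Nat.card {y : G // ∃ d ∈ K, d ^ p ^ j = y} * o) →
    (∀ F ≤ S, (∀ n ∈ F, ∀ d ∈ K, n * d ^ p ^ a * n⁻¹ = d ^ p ^ a) →
      SolvedByCyclic p ⁅F, K⁆ (S ⊓ normalizer ((⁅F, K⁆ : Subgroup G) : Set G))) →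
    SolvedByCyclic p K S

/-- For the abelian group `D` and the inertial group `T` of `b`: for all subgroups `F` of `T` whose
elements centralise the `p ^ a`-th powers of the elements of `D`, `SolvedByCyclic` holds for `[D, F]`
with the action of the normaliser of `[D, F]` in `T`. -/
def LevelSolvedCyclic (p a : ℕ) {k : Type*} [Field k] {G : Type*} [Group G] (D : Subgroup G)
    (b : MonoidAlgebra k (centralizer (D : Set G))) : Prop :=
  ∀ F ≤ inertialGroup D b, (∀ n ∈ F, ∀ d ∈ D, n * d ^ p ^ a * n⁻¹ = d ^ p ^ a) →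
    SolvedByCyclic p ⁅F, D⁆ (inertialGroup D b ⊓ normalizer ((⁅F, D⁆ : Subgroup G) : Set G))

/-- The prime `p` is odd, the block `B` of `G` has an abelian defect group `D`, and, for some block
`b` of `C_G(D)` with `b^G = B` and its inertial group `T`, `SolvedByCyclic` holds with the action of
`T` for `D` or for `[D, C_T(M)]` for some normal `p`-subgroup `M` of `G` (so, for `M = 1`, for
`[D, T]`). -/
def SolvedBlockCyclic (p : ℕ) {k : Type*} [Field k] {G : Type*} [Group G]
    (B : MonoidAlgebra k G) : Prop :=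
  2 < p ∧ ∃ (D : Subgroup G) (b : MonoidAlgebra k (centralizer (D : Set G))),
    IsDefectGroup B D ∧ (∀ x ∈ D, ∀ y ∈ D, x * y = y * x) ∧ IsBlock b ∧ InducesTo b B ∧
    (SolvedByCyclic p D (inertialGroup D b) ∨
      ∃ M : Subgroup G, M.Normal ∧ IsPGroup p M ∧
        SolvedByCyclic p ⁅inertialGroup D b ⊓ centralizer (M : Set G), D⁆ (inertialGroup D b))

end P179B
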