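import Vale.Agent.P179.Allb.CycAct
import Vale.Agent.P179.R2.H443.Sv2
import Vale.Agent.P179.R2.H443.FinB
import Vale.Agent.P179.H905.I23

/-!
# ALLB (P179): the weight conjecture for the closure of the free cyclic case
-/

namespace Vale.P179.Allb

open Subgroup P179H524 P179A P179C P179P P179R P179Y P179H292 P179H351 P179H843 P179H364 P179H443

open P179B (inertialIndex inertialGroup regularElements KnownOrCyclic SolvedByCyclic
  LevelSolvedCyclic SolvedBlockCyclic FreeCyclicOn PowerFaithful)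

open scoped Classical

/-- The lower bound for all blocks with a free cyclic action of the inertial quotient. -/
def ALLBL : Prop := ∀ (p : ℕ) [Fact p.Prime] (k : Type) [Field k] [IsAlgClosed k] [CharP k p]
  (G : Type) [Group G] [Finite G] (B : MonoidAlgebra k G), P179C.IsBlock B →
  ∀ D : Subgroup G, P179C.IsDefectGroup B D → (∀ x ∈ D, ∀ y ∈ D, x * y = y * x) → D ≠ ⊥ →
  ∀ b : MonoidAlgebra k (Subgroup.centralizer (D : Set G)), P179C.IsBlock b →
  P179C.InducesTo b B → (∀ u ∈ D, u ≠ 1 → u ∈ P179B.regularElements D b) →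
  (∃ t ∈ P179B.inertialGroup D b, ∀ n ∈ P179B.inertialGroup D b, ∃ i : ℕ,
    t ^ i * n ∈ Subgroup.centralizer (D : Set G)) →
  P179B.inertialIndex D b ≤ P179C.numSimpleIn B

/-- The number of weights for a cyclic inertial quotient. -/
def WEQ : Prop := ∀ (p : ℕ) [Fact p.Prime] (k : Type) [Field k] [IsAlgClosed k] [CharP k p]
  (red : integralClosure ℤ ℂ →+* k) (G : Type) [Group G] [Finite G] (B : MonoidAlgebra k G),
  P179C.IsBlock B →
  ∀ D : Subgroup G, P179C.IsDefectGroup B D → (∀ x ∈ D, ∀ y ∈ D, x * y = y * x) →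
  ∀ b : MonoidAlgebra k (Subgroup.centralizer (D : Set G)), P179C.IsBlock b →
  P179C.InducesTo b B →
  (∃ t ∈ P179B.inertialGroup D b, ∀ n ∈ P179B.inertialGroup D b, ∃ i : ℕ,
    t ^ i * n ∈ Subgroup.centralizer (D : Set G)) →
  P179C.numWeightsIn p red B = P179B.inertialIndex D b

section

variable {p : ℕ} [hp : Fact p.Prime] {k : Type} [Field k] [IsAlgClosed k] [hk : CharP k p]
  (red : integralClosure ℤ ℂ →+* k)

omit hp [IsAlgClosed k] hk in
/-- the trivial defect group -/
theorem index_bot {G : Type} [Group G] (b : MonoidAlgebra k (centralizer ((⊥ : Subgroup G) : Set G))) :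
    inertialIndex ⊥ b = 1 := by
  unfold P179B.inertialIndex
  rw [relIndex_eq_one]
  intro x _
  rw [mem_centralizer_iff]
  intro y hy
  rw [mem_bot.1 hy, one_mul, mul_one]

include hp hk in
/-- the lower bound, `D = 1` included -/
theorem index_le (hA : ALLBL) {G : Type} [Group G] [Finite G] {B : MonoidAlgebra k G}
    (hB : P179C.IsBlock B) {D : Subgroup G} (hD : P179C.IsDefectGroup B D)
    (hab : ∀ x ∈ D, ∀ y ∈ D, x * y = y * x)
    {b : MonoidAlgebra k (centralizer (D : Set G))} (hb : P179C.IsBlock b)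
    (hbB : P179C.InducesTo b B) (h : FreeCyclicOn D (inertialGroup D b)) :
    inertialIndex D b ≤ P179C.numSimpleIn B := by
  by_cases hD1 : D = ⊥
  · subst hD1
    rw [index_bot]
    exact P179C.numSimpleIn_pos B hB
  · exact hA p k G B hB D hD hab hD1 b hb hbB (fun u hu hu1 => ⟨hu, h.1 u hu hu1⟩) h.2

/-- **`|W_p(B)| ≤ l(B)`**, all primes -/
theorem weights_le (hA : ALLBL) (hW : WEQ) {G : Type} [Group G] [Finite G]
    {B : MonoidAlgebra k G} (hB : P179C.IsBlock B) {D : Subgroup G}
    (hD : P179C.IsDefectGroup B D) (hab : ∀ x ∈ D, ∀ y ∈ D, x * y = y * x)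
    {b : MonoidAlgebra k (centralizer (D : Set G))} (hb : P179C.IsBlock b)
    (hbB : P179C.InducesTo b B) (h : FreeCyclicOn D (inertialGroup D b)) :
    P179C.numWeightsIn p red B ≤ P179C.numSimpleIn B := by
  rw [hW p k red G B hB D hD hab b hb hbB h.2]
  exact index_le hA hB hD hab hb hbB h

/-- **the equality**, `p` odd -/
theorem eq_freeCyclic (hA : ALLBL) (hW : WEQ) (hp2 : p ≠ 2) {G : Type} [Group G] [Finite G]
    {B : MonoidAlgebra k G} (hB : P179C.IsBlock B) {D : Subgroup G}
    (hD : P179C.IsDefectGroup B D) (hab : ∀ x ∈ D, ∀ y ∈ D, x * y = y * x)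
    {b : MonoidAlgebra k (centralizer (D : Set G))} (hb : P179C.IsBlock b)
    (hbB : P179C.InducesTo b B) (h : FreeCyclicOn D (inertialGroup D b)) :
    P179C.numSimpleIn B = P179C.numWeightsIn p red B := by
  have := Fintype.ofFinite G
  rw [hW p k red G B hB D hD hab b hb hbB h.2]
  refine le_antisymm ?_ (index_le hA hB hD hab hb hbB h)
  exact (P179I.bounds_free red hB hD hab hb hbB hp2
    (fun u hu hu1 => ⟨hu, h.1 u hu hu1⟩)).1

theorem eqForAct_freeCyclic (hA : ALLBL) (hW : WEQ) (hp2 : p ≠ 2) {G : Type} [Group G]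
    [Finite G] {K S : Subgroup G} (hS : S ≤ normalizer (K : Set G)) (h : FreeCyclicOn K S) :
    EqForAct p red K S :=
  fun _ _ _ _ _ _ hB hD hab hβ hβB hact =>
    eq_freeCyclic red hA hW hp2 hB hD hab hβ hβB (freeCyclicOn_act hS hact h)

theorem relForAct_freeCyclic (hA : ALLBL) (hW : WEQ) {G : Type} [Group G]
    [Finite G] {K S : Subgroup G} (hS : S ≤ normalizer (K : Set G)) (h : FreeCyclicOn K S) :
    RelForAct p red (fun l w => w ≤ l) K S :=
  fun _ _ _ _ _ _ hB hD hab hβ hβB hact =>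
    weights_le red hA hW hB hD hab hβ hβB (freeCyclicOn_act hS hact h)

/-- **`|W_p(B)| ≤ l(B)`**, all primes, free cyclic action on `[D, T]` -/
theorem weights_le_hyp (hA : ALLBL) (hW : WEQ) {G : Type} [Group G] [Finite G]
    {B : MonoidAlgebra k G} (hB : P179C.IsBlock B) {D : Subgroup G}
    (hD : P179C.IsDefectGroup B D) (hab : ∀ x ∈ D, ∀ y ∈ D, x * y = y * x)
    {b : MonoidAlgebra k (centralizer (D : Set G))} (hb : P179C.IsBlock b)
    (hbB : P179C.InducesTo b B)
    (h : FreeCyclicOn (⁅inertialGroup D b, D⁆ : Subgroup G) (inertialGroup D b)) :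
    P179C.numWeightsIn p red B ≤ P179C.numSimpleIn B := by
  refine P179H364.rel_of_hyp red (P := fun l w => w ≤ l) le_rfl
    (fun _ _ _ _ h2 h3 => add_le_add h2 h3) _ G rfl B D b hB hD hab hb hbB
    (relForAct_freeCyclic red hA hW ?_ h)
  exact comm_normal (fun n hn => hn.1) fun t ht f hf => mul_mem (mul_mem ht hf) (inv_mem ht)

theorem eqForAct_knownOrCyclic (hA : ALLBL) (hW : WEQ) (hp2 : 2 < p) {G : Type} [Group G]
    [Finite G] {K S : Subgroup G} (hS : S ≤ normalizer (K : Set G)) (h : KnownOrCyclic p K S) :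
    EqForAct p red K S := by
  rcases h with h | h
  · exact eqForAct_of_known red (eqwStmt p k) hp2 hS h
  · exact eqForAct_freeCyclic red hA hW (by omega) hS h

/-- **the equality for the groups `K` with the action of `S` which satisfy `SolvedByCyclic`** -/
theorem eqForAct_of_solvedByCyclic (hA : ALLBL) (hW : WEQ) (hp2 : 2 < p) {G : Type} [Group G]
    [Finite G] {K S : Subgroup G} (hS : S ≤ normalizer (K : Set G))
    (h : SolvedByCyclic p K S) : EqForAct p red K S := by
  induction h with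
  | known h => exact eqForAct_knownOrCyclic red hA hW hp2 hS h
  | @step K S a j o w hj ho hw hord hreg hii hcd _ ih =>
    intro X _ _ B D β hB hDB hab hβ hβB hact
    have hB' : P179B.IsBlock B := hB
    have hDB' : P179B.IsDefectGroup B D := hDB
    have hβB' : P179B.InducesTo β B := (P179B.inducesTo_iff β B).2 hβB
    have hp2' : p ≠ 2 := by omega
    have hK : ∀ t ∈ S, ∀ x ∈ K, t * x * t⁻¹ ∈ K := fun t ht x hx =>
      (mem_normalizer_iff.1 (hS ht) x).1 hx
    have hTN : inertialGroup D β ≤ normalizer (D : Set X) := fun n hn => hn.1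
    -- the groups `[D, F]`
    have hF : ∀ F' ≤ inertialGroup D β, (∀ n ∈ F', ∀ d ∈ D, n * d ^ p ^ a * n⁻¹ = d ^ p ^ a) →
        EqForAct p red (⁅F', D⁆ : Subgroup X)
          (inertialGroup D β ⊓ normalizer ((⁅F', D⁆ : Subgroup X) : Set X)) := by
      intro F' hF' hq
      obtain ⟨F, hFS, hFq, hFa⟩ := comm_act hK hact hF' hq
      exact (ih F hFS hFq inf_le_right).congr hFa
    obtain ⟨w', hw'⟩ := RegData.act (a := a) ⟨hw, hord, hreg, hii, hcd⟩ inferInstance hS hact
    have hl := bound_of_regData red hp2' hB hDB hab hβ hβB hj ho hw'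
    have hwt := weights_of_regData red hp2' hB hDB hab hβ hβB hj ho hw'
    by_cases hex : ∃ d ∈ D, d ^ p ^ a ≠ 1
    · have hdvd := dvd_of_starA red (eqwStmt p k) hB' hDB' hab hβ hβB' hex
        fun F hFT _ M _ _ hM hFM _ => hF F hFT fun n hn d hd => by
          rw [← mem_centralizer_iff.1 (hFM hn) _ (hM d hd), mul_inv_cancel_right]
      have hmod : P179B.numSimpleIn B ≡ P179B.numWeightsIn p red B [MOD p ^ (a + 1)] := by
        rw [← Int.natCast_modEq_iff]
        refine Int.ModEq.symm ((Int.modEq_iff_dvd).2 ?_)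
        exact_mod_cast hdvd
      have hl0 : 0 < P179B.numSimpleIn B := by
        rw [P179B.numSimpleIn_eq]
        exact P179C.numSimpleIn_pos B hB
      rw [← P179B.numSimpleIn_eq] at hl
      rw [← P179B.numWeightsIn_eq] at hwt
      have h3 := eq_of_modEq_le hmod hl0 hl (numWeights_pos red hB' hDB' hab) hwt
      rwa [P179B.numSimpleIn_eq, P179B.numWeightsIn_eq] at h3
    · push Not at hex
      have h1 := hF (inertialGroup D β) le_rfl fun n _ d hd => by
        rw [hex d hd, mul_one, mul_inv_cancel]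
      have h2 : inertialGroup D β ⊓ normalizer
          ((⁅inertialGroup D β, D⁆ : Subgroup X) : Set X) = inertialGroup D β :=
        inf_eq_left.2 (comm_normal hTN fun t ht f hf =>
          mul_mem (mul_mem ht hf) (inv_mem ht))
      rw [h2] at h1
      exact P179H364.rel_of_hyp red (P := fun l w => l = w) rfl
        (fun _ _ _ _ h2 h3 => by rw [h2, h3]) _ X rfl B D β hB hDB hab hβ hβB h1

end

section

variable {p : ℕ} [hp : Fact p.Prime] {k : Type} [Field k] [IsAlgClosed k] [hk : CharP k p]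
  (red : integralClosure ℤ ℂ →+* k) {G : Type} [Group G] [Finite G] {B : MonoidAlgebra k G}
  {D : Subgroup G} {β : MonoidAlgebra k (centralizer (D : Set G))}

/-- **the equality**, in terms of `D` -/
theorem eq_of_solvedByCyclic (hA : ALLBL) (hW : WEQ) (hp2 : 2 < p) (hB : P179B.IsBlock B)
    (hD : P179B.IsDefectGroup B D) (hab : ∀ a ∈ D, ∀ b ∈ D, a * b = b * a)
    (hβ : P179B.IsBlock β) (hβB : P179B.InducesTo β B)
    (h : SolvedByCyclic p D (inertialGroup D β)) :
    P179B.numSimpleIn B = P179B.numWeightsIn p red B := by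
  have hTN : inertialGroup D β ≤ normalizer (D : Set G) := fun n hn => hn.1
  rw [P179B.numSimpleIn_eq, P179B.numWeightsIn_eq]
  exact eqForAct_of_solvedByCyclic red hA hW hp2 hTN h G B D β hB hD hab hβ
    ((P179B.inducesTo_iff β B).1 hβB) (actSub_refl _ _)

/-- **the equality**, in terms of `[D, T]` -/
theorem eq_of_solvedByCyclic_hyp (hA : ALLBL) (hW : WEQ) (hp2 : 2 < p) (hB : P179B.IsBlock B)
    (hD : P179B.IsDefectGroup B D) (hab : ∀ a ∈ D, ∀ b ∈ D, a * b = b * a)
    (hβ : P179B.IsBlock β) (hβB : P179B.InducesTo β B)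
    (h : SolvedByCyclic p (⁅inertialGroup D β, D⁆ : Subgroup G) (inertialGroup D β)) :
    P179B.numSimpleIn B = P179B.numWeightsIn p red B := by
  rw [P179B.numSimpleIn_eq, P179B.numWeightsIn_eq]
  refine P179H364.rel_of_hyp red (P := fun l w => l = w) rfl
    (fun _ _ _ _ h2 h3 => by rw [h2, h3]) _ G rfl B D β hB hD hab hβ
    ((P179B.inducesTo_iff β B).1 hβB) (eqForAct_of_solvedByCyclic red hA hW hp2 ?_ h)
  exact comm_normal (fun n hn => hn.1) fun t ht f hf => mul_mem (mul_mem ht hf) (inv_mem ht)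

/-- **the equality**, in terms of `[D, C_T(M)]` for a normal `p`-subgroup `M` of `G` -/
theorem eq_of_solvedByCyclic_normal (hA : ALLBL) (hW : WEQ) (hp2 : 2 < p) (M : Subgroup G)
    [hMn : M.Normal] (hM : IsPGroup p M) (hB : P179B.IsBlock B)
    (hD : P179B.IsDefectGroup B D) (hab : ∀ a ∈ D, ∀ b ∈ D, a * b = b * a)
    (hβ : P179B.IsBlock β) (hβB : P179B.InducesTo β B)
    (h : SolvedByCyclic p (⁅inertialGroup D β ⊓ centralizer (M : Set G), D⁆ : Subgroup G)
      (inertialGroup D β)) :
    P179B.numSimpleIn B = P179B.numWeightsIn p red B := by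
  have hN : inertialGroup D β ≤ normalizer
      ((⁅inertialGroup D β ⊓ centralizer (M : Set G), D⁆ : Subgroup G) : Set G) := by
    refine comm_normal (fun n hn => hn.1) fun t ht f hf => ?_
    have h2 : (centralizer (M : Set G)).Normal := inferInstance
    exact Subgroup.mem_inf.2 ⟨(inertialGroup D β).mul_mem ((inertialGroup D β).mul_mem ht hf.1)
      ((inertialGroup D β).inv_mem ht), h2.conj_mem f hf.2 t⟩
  rw [P179B.numSimpleIn_eq, P179B.numWeightsIn_eq]
  refine P179H443.eq_of_eqw_act red (eqwStmt p k) M hM hB hD hab hβ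
    ((P179B.inducesTo_iff β B).1 hβB) ?_
  rw [inf_eq_left.2 hN]
  exact eqForAct_of_solvedByCyclic red hA hW hp2 hN h

/-- **the congruence modulo `p ^ (a + 1)`** -/
theorem modEq_of_levelSolvedCyclic (hA : ALLBL) (hW : WEQ) {a : ℕ} (hB : P179B.IsBlock B)
    (hD : P179B.IsDefectGroup B D) (hab : ∀ x ∈ D, ∀ y ∈ D, x * y = y * x)
    (hβ : P179B.IsBlock β) (hβB : P179B.InducesTo β B)
    (h : 2 < p ∧ LevelSolvedCyclic p a D β) :
    P179B.numSimpleIn B ≡ P179B.numWeightsIn p red B [MOD p ^ (a + 1)] := by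
  obtain ⟨hp2, h⟩ := h
  by_cases hex : ∃ d ∈ D, d ^ p ^ a ≠ 1
  · have hdvd := dvd_of_starA red (eqwStmt p k) hB hD hab hβ hβB hex
      fun F hFT _ M _ _ hM hFM _ => eqForAct_of_solvedByCyclic red hA hW hp2 inf_le_right
        (h F hFT fun n hn d hd => by
          rw [← mem_centralizer_iff.1 (hFM hn) _ (hM d hd), mul_inv_cancel_right])
    rw [← Int.natCast_modEq_iff]
    refine Int.ModEq.symm ((Int.modEq_iff_dvd).2 ?_)
    exact_mod_cast hdvd
  · push Not at hex
    have h1 := h (inertialGroup D β) le_rfl fun n _ d hd => by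
      rw [hex d hd, mul_one, mul_inv_cancel]
    have h2 : inertialGroup D β ⊓ normalizer
        ((⁅inertialGroup D β, D⁆ : Subgroup G) : Set G) = inertialGroup D β :=
      inf_eq_left.2 (comm_normal (fun n hn => hn.1) fun t ht f hf =>
        mul_mem (mul_mem ht hf) (inv_mem ht))
    rw [h2] at h1
    rw [eq_of_solvedByCyclic_hyp red hA hW hp2 hB hD hab hβ hβB h1]

/-- **the equality** -/
theorem eq_of_solvedBlockCyclic (hA : ALLBL) (hW : WEQ) (hB : P179B.IsBlock B)
    (h : SolvedBlockCyclic p B) :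
    P179B.numSimpleIn B = P179B.numWeightsIn p red B := by
  obtain ⟨hp2, D, b, hD, hab, hb, hbB, h | ⟨M, hMn, hMp, h⟩⟩ := h
  · exact eq_of_solvedByCyclic red hA hW hp2 hB hD hab hb hbB h
  · exact eq_of_solvedByCyclic_normal red hA hW hp2 M hMp hB hD hab hb hbB h

end

end Vale.P179.Allb
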