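import Vale.Agent.P179.Allb.Defs

/-!
# ALLB (P179): the step, the induction and the final theorem, from the modules
-/

namespace Vale.P179.Allb

open Module Vale.P179.Sgn Vale.P179.H445
open scoped TensorProduct

section Basic

variable {k D Λ : Type} [Field k] [CommGroup D] [Ring Λ] [Algebra k Λ]

theorem PX.cnt_mono (A : PX k D Λ) {X Y : Subgroup D} (h : X ≤ Y) : A.cnt Y ≤ A.cnt X := by
  have := A.fin
  unfold PX.cnt
  refine Nat.card_le_card_of_injective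
    (fun i : {i : A.I // ∀ x ∈ Y, A.u x * A.b i = A.b i * A.u x} =>
      (⟨i.1, fun x hx => i.2 x (h hx)⟩ : {i : A.I // ∀ x ∈ X, A.u x * A.b i = A.b i * A.u x})) ?_
  intro i j hij
  have := congrArg Subtype.val hij
  exact Subtype.ext this

theorem AX.cnt_ge {τ : MulAut D} {e : ℕ} (A : AX k D Λ τ e) (X : Subgroup D) :
    Nat.card D ≤ A.cnt X := by
  rw [← A.rank]
  exact A.toPX.cnt_mono le_top

/-- in the situation of `Bar`, goodness above `Q` means that all nontrivial subgroups of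
`D / Q` are good -/
theorem Bar.allGood {Λ₁ : Type} [Ring Λ₁] [Algebra k Λ₁] [Finite D] {τ : MulAut D} {e : ℕ}
    {A : AX k D Λ τ e} {Q : Subgroup D} {A₁ : AX k (D ⧸ Q) Λ₁ 1 1} {π : A.CA Q →ₐ[k] Λ₁}
    (h : Bar A Q A₁ π) (hQ : ∀ R : Subgroup D, Q < R → A.cnt R = Nat.card D) : A₁.AllGood := by
  intro X hX
  have hle : Q ≤ X.comap (QuotientGroup.mk' Q) := by
    intro x hx
    rw [Subgroup.mem_comap]
    have : (QuotientGroup.mk' Q) x = 1 := by
      rwa [QuotientGroup.mk'_apply, QuotientGroup.eq_one_iff]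
    rw [this]
    exact one_mem _
  have hmap : (X.comap (QuotientGroup.mk' Q)).map (QuotientGroup.mk' Q) = X :=
    Subgroup.map_comap_eq_self_of_surjective (QuotientGroup.mk'_surjective Q) X
  have hlt : Q < X.comap (QuotientGroup.mk' Q) := by
    refine lt_of_le_of_ne hle fun he => hX ?_
    rw [← hmap, ← he, eq_bot_iff]
    rintro _ ⟨x, hx, rfl⟩
    rw [Subgroup.mem_bot, QuotientGroup.mk'_apply, QuotientGroup.eq_one_iff]
    exact hx
  have h1 := h.cnt _ hle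
  rw [hmap, hQ _ hlt, ← Subgroup.card_mul_index Q, Subgroup.index_eq_card, mul_comm] at h1
  exact Nat.eq_of_mul_eq_mul_left Nat.card_pos h1

theorem Bar.good {Λ₁ : Type} [Ring Λ₁] [Algebra k Λ₁] [Finite D] {τ : MulAut D} {e : ℕ}
    {A : AX k D Λ τ e} {Q : Subgroup D} {A₁ : AX k (D ⧸ Q) Λ₁ 1 1} {π : A.CA Q →ₐ[k] Λ₁}
    (h : Bar A Q A₁ π) (h1 : A₁.cnt ⊥ = Nat.card (D ⧸ Q)) : A.cnt Q = Nat.card D := by
  have hmap : Q.map (QuotientGroup.mk' Q) = ⊥ := by
    rw [eq_bot_iff]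
    rintro _ ⟨x, hx, rfl⟩
    rw [Subgroup.mem_bot, QuotientGroup.mk'_apply, QuotientGroup.eq_one_iff]
    exact hx
  have h2 := h.cnt Q le_rfl
  rw [hmap, h1] at h2
  rw [← h2, ← Subgroup.card_mul_index Q, Subgroup.index_eq_card, mul_comm]

end Basic

theorem card_map_pow {D : Type} [CommGroup D] (τ : MulAut D) (Q : Subgroup D) (i : ℕ) :
    Nat.card (Q.map ((τ ^ i : MulAut D) : D →* D)) = Nat.card Q :=
  Nat.card_congr (Subgroup.equivMapOfInjective Q _
    (by exact (τ ^ i : MulAut D).injective)).symm.toEquiv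

theorem step (hBar : BAR) (hY1 : Y1) (hY2 : Y2) (hK : KAP) (hW : WMOD) (hM : MATM) (hC : CUTM)
    (hP : PSI) (hE : ESYM) : STEP := by
  intro p _ k _ _ _ D _ _ τ e _ hτ Λ _ _ A Q hQ hgood hbad
  have hQt : Q ≠ ⊤ := by
    rintro rfl
    exact hbad A.rank
  obtain ⟨Λ₁, _, _, A₁, π, hB⟩ := hBar p k D τ e hτ Λ A Q hQ
  have hpP : IsPGroup p (D ⧸ Q) := hτ.pgr.to_quotient Q
  have hnt : Nontrivial (D ⧸ Q) := by
    rw [← not_subsingleton_iff_nontrivial]
    intro hs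
    apply hQt
    rw [eq_top_iff]
    intro x _
    rw [← QuotientGroup.eq_one_iff]
    exact Subsingleton.elim _ _
  have hA₁ := hB.allGood hgood
  obtain ⟨d, φ, hφ, hnil, hET⟩ := hY1 p k (D ⧸ Q) hpP Λ₁ A₁ hA₁
  -- the dual representation
  let r : D →* Matrix (Fin d) (Fin d) k :=
    { toFun := fun x => (φ (A₁.u (QuotientGroup.mk x⁻¹))).transpose
      map_one' := by simp
      map_mul' := by
        intro x y
        have h1 : (QuotientGroup.mk (x * y)⁻¹ : D ⧸ Q)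
            = QuotientGroup.mk y⁻¹ * QuotientGroup.mk x⁻¹ := by
          rw [mul_inv_rev]
          rfl
        change (φ (A₁.u (QuotientGroup.mk (x * y)⁻¹))).transpose = _
        rw [h1, map_mul, map_mul, Matrix.transpose_mul] }
  have hr : ∀ x, r x = (φ (A₁.u (QuotientGroup.mk x⁻¹))).transpose := fun x => rfl
  have hrET : EndoTriv r Q := by
    obtain ⟨-, hd, T, hT, θ, hθ1, hθ2, hθ3⟩ := hET
    have hT' : ∀ i, (θ.map (Matrix.transposeLinearEquiv (Fin d) (Fin d) k k)) i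
        = (θ i).transpose := by
      intro i
      rw [Basis.map_apply]
      rfl
    refine ⟨?_, hd, T, hT, θ.map (Matrix.transposeLinearEquiv (Fin d) (Fin d) k k), ?_, ?_, ?_⟩
    · intro q hq
      have : (QuotientGroup.mk q⁻¹ : D ⧸ Q) = 1 := by
        rw [QuotientGroup.eq_one_iff]
        exact inv_mem hq
      rw [hr, this]
      simp
    · rw [hT', hθ1, Matrix.transpose_one]
    · intro x i
      obtain ⟨j, hj⟩ := hθ2 (QuotientGroup.mk x) i
      refine ⟨j, ?_⟩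
      rw [hT', hT', ← hj, hr, hr, inv_inv, Matrix.transpose_mul, Matrix.transpose_mul, mul_assoc]
      rfl
    · intro x hx i h
      refine hθ3 (QuotientGroup.mk x)⁻¹ ?_ i ?_
      · rw [Subgroup.mem_bot, inv_eq_one, QuotientGroup.eq_one_iff]
        exact hx
      · rw [hT', hr, ← Matrix.transpose_mul, ← Matrix.transpose_mul] at h
        have h' := Matrix.transpose_injective h
        exact h'.symm
  have hκ : ∀ m : ℕ, (∀ x ∈ Q, (τ ^ m) x ∈ Q) →
      ∃ κ : Matrix (Fin d) (Fin d) k, IsUnit κ ∧ ∀ x, κ * r x = r ((τ ^ m) x) * κ := by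
    intro m hm
    obtain ⟨κ, hκu, hκ⟩ := hK p k D τ e hτ Λ Λ₁ A Q A₁ π hB d φ hφ hnil m hm
    obtain ⟨κ', hκ'⟩ := (Matrix.isUnit_transpose (A := κ)).2 hκu
    refine ⟨↑κ'⁻¹, Units.isUnit _, fun x => ?_⟩
    have h1 := congrArg Matrix.transpose (hκ x⁻¹)
    rw [Matrix.transpose_mul, Matrix.transpose_mul, ← hκ', ← hr, map_inv, ← hr] at h1
    rw [Units.inv_mul_eq_iff_eq_mul, ← mul_assoc, ← h1, mul_assoc, Units.mul_inv, mul_one]
  obtain ⟨J, _, _, r₁, w, hw, h1, hJ, hcnt⟩ := hW p k D τ e hτ Q hQ hQt d r hrET hκ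
  obtain ⟨B, hB'⟩ := hM p k D τ e hτ Λ A (Fin d × J) w
  have hnot : ∀ R : Subgroup D, Nat.card Q < Nat.card R → ∀ i : ℕ,
      ¬ R ≤ Q.map ((τ ^ i : MulAut D) : D →* D) := by
    intro R hR i hi
    have h2 := Subgroup.card_le_of_le hi
    rw [card_map_pow] at h2
    exact absurd hR (not_lt.2 h2)
  have hlt : ∀ R : Subgroup D, Q < R → Nat.card Q < Nat.card R := by
    intro R hR
    exact Set.ncard_lt_ncard (s := (Q : Set D)) (t := (R : Set D)) hR (Set.toFinite _)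
  have htop : w.cnt ⊤ = 1 := hcnt ⊤ (hnot ⊤ (hlt ⊤ (lt_top_iff_ne_top.2 hQt)))
  obtain ⟨Λ', _, _, v, A', j, hj, hju, hv, hvu, hvt, hlB, hX⟩ :=
    hC p k D τ e hτ Λ A (Fin d × J) w B hB' htop
  have hkeep : ∀ X : Subgroup D, A.cnt X = Nat.card D → w.cnt X = 1 →
      A'.cnt X = Nat.card D := by
    intro X h2 h3
    have h4 := hX X
    rw [h2, h3, mul_one] at h4
    exact le_antisymm h4.2 h4.1
  obtain ⟨Λ₂, _, _, A₂, π₂, hB₂⟩ := hBar p k D τ e hτ Λ' A' Q hQ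
  have hgood' : ∀ R : Subgroup D, Q < R → A'.cnt R = Nat.card D := fun R hR =>
    hkeep R (hgood R hR) (hcnt R (hnot R (hlt R hR)))
  obtain ⟨V, _, _, _, _, φ₂, α, β, hφ₂, hβα, hα, hβ⟩ := hP p k D τ e hτ Λ Λ₁ A Q hQ A₁ π hB d φ
    hφ hnil J r₁ w (fun x a b => by rw [hw, hr]; rfl) h1 hJ B hB' Λ' v A' j hj hju hv hvu hvt Λ₂ A₂
    π₂ hB₂
  have hfin := hY2 p k (D ⧸ Q) hpP Λ₂ A₂ (hB₂.allGood hgood') V φ₂ hφ₂ (Fin d)
    ((φ : Λ₁ →* Matrix (Fin d) (Fin d) k).comp A₁.u) hET α β hβα (fun x v => hα x v)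
    (fun x M => hβ x M)
  refine ⟨Λ', _, _, A', hlB, ?_, hB₂.good hfin⟩
  intro X hX0 hXg
  refine hkeep X hXg (hcnt X fun i hi => hbad ?_)
  have h2 := A.toPX.cnt_mono hi
  rw [hE p k D τ e hτ Λ A Q i, hXg] at h2
  exact le_antisymm h2 (A.cnt_ge Q)

/-- Induction over the number of bad subgroups. -/
theorem allGood (hS : STEP) (p : ℕ) [Fact p.Prime] (k : Type) [Field k] [IsAlgClosed k]
    [CharP k p] (D : Type) [CommGroup D] [Finite D] (τ : MulAut D) (e : ℕ) [NeZero e]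
    (hτ : TW p D τ e) : ∀ (n : ℕ) (Λ : Type) [Ring Λ] [Algebra k Λ] (A : AX k D Λ τ e),
    Nat.card {X : Subgroup D // X ≠ ⊥ ∧ A.cnt X ≠ Nat.card D} ≤ n →
    ∃ (Λ' : Type) (_ : Ring Λ') (_ : Algebra k Λ') (A' : AX k D Λ' τ e), lB k Λ' ≤ lB k Λ ∧
      A'.AllGood := by
  intro n
  induction n with
  | zero =>
    intro Λ _ _ A hn
    refine ⟨Λ, _, _, A, le_rfl, fun X hX => ?_⟩
    by_contra h
    have h1 : IsEmpty {X : Subgroup D // X ≠ ⊥ ∧ A.cnt X ≠ Nat.card D} := by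
      have h2 := Nat.card_eq_zero.1 (Nat.le_zero.1 hn)
      rcases h2 with h2 | h2
      · exact h2
      · exact absurd (inferInstance : Finite {X : Subgroup D // X ≠ ⊥ ∧ A.cnt X ≠ Nat.card D})
          (not_finite_iff_infinite.2 h2)
    exact h1.false ⟨X, hX, h⟩
  | succ n ih =>
    intro Λ _ _ A hn
    by_cases hg : A.AllGood
    · exact ⟨Λ, _, _, A, le_rfl, hg⟩
    · have hg' : ∃ X : Subgroup D, X ≠ ⊥ ∧ A.cnt X ≠ Nat.card D := by
        by_contra h
        push Not at h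
        exact hg h
      -- a bad subgroup of maximal order
      have hfin : ({X : Subgroup D | X ≠ ⊥ ∧ A.cnt X ≠ Nat.card D}).Finite := Set.toFinite _
      obtain ⟨Q, hQ⟩ := hfin.exists_maximal hg'
      have hQ1 : Q ≠ ⊥ := hQ.prop.1
      have hQ2 : A.cnt Q ≠ Nat.card D := hQ.prop.2
      have hup : ∀ R : Subgroup D, Q < R → A.cnt R = Nat.card D := by
        intro R hR
        by_contra h
        have h1 : R ∈ {X : Subgroup D | X ≠ ⊥ ∧ A.cnt X ≠ Nat.card D} :=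
          ⟨fun h2 => by rw [h2] at hR; exact not_lt_bot hR, h⟩
        exact absurd (hQ.le_of_ge h1 hR.le) (not_le_of_gt hR)
      obtain ⟨Λ', _, _, A', hl, hk, hq⟩ := hS p k D τ e hτ Λ A Q hQ1 hup hQ2
      have hlt : Nat.card {X : Subgroup D // X ≠ ⊥ ∧ A'.cnt X ≠ Nat.card D}
          < Nat.card {X : Subgroup D // X ≠ ⊥ ∧ A.cnt X ≠ Nat.card D} := by
        refine Set.ncard_lt_ncard (s := {X : Subgroup D | X ≠ ⊥ ∧ A'.cnt X ≠ Nat.card D})
          (t := {X : Subgroup D | X ≠ ⊥ ∧ A.cnt X ≠ Nat.card D}) ?_ (Set.toFinite _)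
        refine ⟨fun X hX => ⟨hX.1, fun h => hX.2 (hk X hX.1 h)⟩, fun h => ?_⟩
        exact (h hQ.prop).2 hq
      obtain ⟨Λ'', _, _, A'', hl', hg''⟩ := ih Λ' A' (by omega)
      exact ⟨Λ'', _, _, A'', hl'.trans hl, hg''⟩

theorem PX.finDim {k D Λ : Type} [Field k] [CommGroup D] [Ring Λ] [Algebra k Λ]
    (A : PX k D Λ) : FiniteDimensional k Λ := by
  have := A.fin
  exact Module.Finite.of_basis A.b

theorem AX.nontrivial {k D Λ : Type} [Field k] [CommGroup D] [Finite D] [Ring Λ] [Algebra k Λ]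
    {τ : MulAut D} {e : ℕ} (A : AX k D Λ τ e) : Nontrivial Λ := by
  by_contra h
  have hs : Subsingleton Λ := not_nontrivial_iff_subsingleton.1 h
  have h1 := A.rank
  have h2 : IsEmpty A.I := by
    by_contra h3
    obtain ⟨i⟩ := not_isEmpty_iff.1 h3
    exact A.b.ne_zero i (Subsingleton.elim _ _)
  have h3 : A.cnt ⊤ = 0 := by
    unfold PX.cnt
    exact Nat.card_of_isEmpty
  rw [h3] at h1
  exact absurd h1.symm Nat.card_pos.ne'

/-- The lower bound for the class `AX`. -/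
theorem ax_lower (hS : STEP) (hE : ENDP) (hG : GRPD) (hL : LOWER) (p : ℕ) [Fact p.Prime]
    (k : Type) [Field k] [IsAlgClosed k] [CharP k p] (D : Type) [CommGroup D] [Finite D]
    [Nontrivial D] (τ : MulAut D) (e : ℕ) [NeZero e] (hτ : TW p D τ e) (Λ : Type) [Ring Λ]
    [Algebra k Λ] (A : AX k D Λ τ e) : e ≤ lB k Λ := by
  obtain ⟨Λ', _, _, A', hl, hg⟩ := allGood hS p k D τ e hτ _ Λ A le_rfl
  obtain ⟨Γ, _, _, i, g, hGX, hfree⟩ := hG p D τ e hτ
  obtain ⟨K, hγ, -, -, -, hZ⟩ := hE p k D τ e hτ Λ' A' hg Γ i g hGX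
  have := A'.toPX.finDim
  have := A'.nontrivial
  exact (hL p k Λ' Γ K e hγ hfree hZ).trans hl

/-- The lower bound for all blocks with abelian defect group and cyclic inertial quotient acting
freely. -/
theorem block_lower (hS : STEP) (hE : ENDP) (hG : GRPD) (hL : LOWER) (hB : START) (p : ℕ)
    [Fact p.Prime] (k : Type) [Field k] [IsAlgClosed k] [CharP k p]
    (G : Type) [Group G] [Finite G] (B : MonoidAlgebra k G) (h1 : P179C.IsBlock B)
    (D : Subgroup G) (h2 : P179C.IsDefectGroup B D) (h3 : ∀ x ∈ D, ∀ y ∈ D, x * y = y * x)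
    (h4 : D ≠ ⊥) (b : MonoidAlgebra k (Subgroup.centralizer (D : Set G))) (h5 : P179C.IsBlock b)
    (h6 : P179C.InducesTo b B) (h7 : ∀ u ∈ D, u ≠ 1 → u ∈ P179B.regularElements D b)
    (h8 : ∃ t ∈ P179B.inertialGroup D b, ∀ n ∈ P179B.inertialGroup D b, ∃ i : ℕ,
      t ^ i * n ∈ Subgroup.centralizer (D : Set G)) :
    P179B.inertialIndex D b ≤ P179C.numSimpleIn B := by
  obtain ⟨D', _, _, _, τ, Λ, _, _, A, he, hτ, hl⟩ := hB p k G B h1 D h2 h3 h4 b h5 h6 h7 h8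
  have : NeZero (P179B.inertialIndex D b) := ⟨he⟩
  exact (ax_lower hS hE hG hL p k D' τ _ hτ Λ A).trans hl

end Vale.P179.Allb
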