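import Vale.Agent.P179.Allb.Step
import Vale.Agent.P179.Allb.DefsR

/-!
# ALLB (P179): the step without freeness
-/

namespace Vale.P179.Allb

open Module Vale.P179.Sgn Vale.P179.H445
open scoped TensorProduct

theorem stepR (hBar : BARR) (hY1 : Y1) (hY2 : Y2) (hK : KAPR) (hW : WMODR) (hM : MATMR)
    (hC : CUTMR) (hP : PSIR) (hE : ESYMR) : STEPR := by
  intro p _ k _ _ _ D _ _ τ e _ hτ Λ _ _ A Q hQ hgood hbad
  have hQt : Q ≠ ⊤ := by
    rintro rfl
    exact hbad A.rank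
  obtain ⟨Λ₁, _, _, A₁, π, hB⟩ := hBar p k D τ e hτ Λ A Q hQ
  have hpP : IsPGroup p (D ⧸ Q) := hτ.pgr.to_quotient Q
  have hnt : Nontrivial (D ⧸ Q) := by
    rw [← not_subsingleton_iff_nontrivial]
    intro hs
    apply hQt
    rw [eq_top_iff]
    intro x _
    rw [← QuotientGroup.eq_one_iff]
    exact Subsingleton.elim _ _
  have hA₁ := hB.allGood hgood
  obtain ⟨d, φ, hφ, hnil, hET⟩ := hY1 p k (D ⧸ Q) hpP Λ₁ A₁ hA₁
  -- the dual representation
  let r : D →* Matrix (Fin d) (Fin d) k :=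
    { toFun := fun x => (φ (A₁.u (QuotientGroup.mk x⁻¹))).transpose
      map_one' := by simp
      map_mul' := by
        intro x y
        have h1 : (QuotientGroup.mk (x * y)⁻¹ : D ⧸ Q)
            = QuotientGroup.mk y⁻¹ * QuotientGroup.mk x⁻¹ := by
          rw [mul_inv_rev]
          rfl
        change (φ (A₁.u (QuotientGroup.mk (x * y)⁻¹))).transpose = _
        rw [h1, map_mul, map_mul, Matrix.transpose_mul] }
  have hr : ∀ x, r x = (φ (A₁.u (QuotientGroup.mk x⁻¹))).transpose := fun x => rfl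
  have hrET : EndoTriv r Q := by
    obtain ⟨-, hd, T, hT, θ, hθ1, hθ2, hθ3⟩ := hET
    have hT' : ∀ i, (θ.map (Matrix.transposeLinearEquiv (Fin d) (Fin d) k k)) i
        = (θ i).transpose := by
      intro i
      rw [Basis.map_apply]
      rfl
    refine ⟨?_, hd, T, hT, θ.map (Matrix.transposeLinearEquiv (Fin d) (Fin d) k k), ?_, ?_, ?_⟩
    · intro q hq
      have : (QuotientGroup.mk q⁻¹ : D ⧸ Q) = 1 := by
        rw [QuotientGroup.eq_one_iff]
        exact inv_mem hq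
      rw [hr, this]
      simp
    · rw [hT', hθ1, Matrix.transpose_one]
    · intro x i
      obtain ⟨j, hj⟩ := hθ2 (QuotientGroup.mk x) i
      refine ⟨j, ?_⟩
      rw [hT', hT', ← hj, hr, hr, inv_inv, Matrix.transpose_mul, Matrix.transpose_mul, mul_assoc]
      rfl
    · intro x hx i h
      refine hθ3 (QuotientGroup.mk x)⁻¹ ?_ i ?_
      · rw [Subgroup.mem_bot, inv_eq_one, QuotientGroup.eq_one_iff]
        exact hx
      · rw [hT', hr, ← Matrix.transpose_mul, ← Matrix.transpose_mul] at h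
        have h' := Matrix.transpose_injective h
        exact h'.symm
  have hκ : ∀ m : ℕ, (∀ x ∈ Q, (τ ^ m) x ∈ Q) →
      ∃ κ : Matrix (Fin d) (Fin d) k, IsUnit κ ∧ ∀ x, κ * r x = r ((τ ^ m) x) * κ := by
    intro m hm
    obtain ⟨κ, hκu, hκ⟩ := hK p k D τ e hτ Λ Λ₁ A Q A₁ π hB d φ hφ hnil m hm
    obtain ⟨κ', hκ'⟩ := (Matrix.isUnit_transpose (A := κ)).2 hκu
    refine ⟨↑κ'⁻¹, Units.isUnit _, fun x => ?_⟩
    have h1 := congrArg Matrix.transpose (hκ x⁻¹)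
    rw [Matrix.transpose_mul, Matrix.transpose_mul, ← hκ', ← hr, map_inv, ← hr] at h1
    rw [Units.inv_mul_eq_iff_eq_mul, ← mul_assoc, ← h1, mul_assoc, Units.mul_inv, mul_one]
  obtain ⟨J, _, _, r₁, w, hw, h1, hJ, hcnt⟩ := hW p k D τ e hτ Q hQt d r hrET hκ
  obtain ⟨B, hB'⟩ := hM p k D τ e hτ Λ A (Fin d × J) w
  have hnot : ∀ R : Subgroup D, Nat.card Q < Nat.card R → ∀ i : ℕ,
      ¬ R ≤ Q.map ((τ ^ i : MulAut D) : D →* D) := by
    intro R hR i hi
    have h2 := Subgroup.card_le_of_le hi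
    rw [card_map_pow] at h2
    exact absurd hR (not_lt.2 h2)
  have hlt : ∀ R : Subgroup D, Q < R → Nat.card Q < Nat.card R := by
    intro R hR
    exact Set.ncard_lt_ncard (s := (Q : Set D)) (t := (R : Set D)) hR (Set.toFinite _)
  have htop : w.cnt ⊤ = 1 := hcnt ⊤ (hnot ⊤ (hlt ⊤ (lt_top_iff_ne_top.2 hQt)))
  obtain ⟨Λ', _, _, v, A', j, hj, hju, hv, hvu, hvt, hlB, hX⟩ :=
    hC p k D τ e hτ Λ A (Fin d × J) w B hB' htop
  have hkeep : ∀ X : Subgroup D, A.cnt X = Nat.card D → w.cnt X = 1 →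
      A'.cnt X = Nat.card D := by
    intro X h2 h3
    have h4 := hX X
    rw [h2, h3, mul_one] at h4
    exact le_antisymm h4.2 h4.1
  obtain ⟨Λ₂, _, _, A₂, π₂, hB₂⟩ := hBar p k D τ e hτ Λ' A' Q hQ
  have hgood' : ∀ R : Subgroup D, Q < R → A'.cnt R = Nat.card D := fun R hR =>
    hkeep R (hgood R hR) (hcnt R (hnot R (hlt R hR)))
  obtain ⟨V, _, _, _, _, φ₂, α, β, hφ₂, hβα, hα, hβ⟩ := hP p k D τ e hτ Λ Λ₁ A Q hQ A₁ π hB d φ
    hφ hnil J r₁ w (fun x a b => by rw [hw, hr]; rfl) h1 hJ B hB' Λ' v A' j hj hju hv hvu hvt Λ₂ A₂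
    π₂ hB₂
  have hfin := hY2 p k (D ⧸ Q) hpP Λ₂ A₂ (hB₂.allGood hgood') V φ₂ hφ₂ (Fin d)
    ((φ : Λ₁ →* Matrix (Fin d) (Fin d) k).comp A₁.u) hET α β hβα (fun x v => hα x v)
    (fun x M => hβ x M)
  refine ⟨Λ', _, _, A', hlB, ?_, hB₂.good hfin⟩
  intro X hXg
  refine hkeep X hXg (hcnt X fun i hi => hbad ?_)
  have h2 := A.toPX.cnt_mono hi
  rw [hE p k D τ e hτ Λ A Q i, hXg] at h2
  exact le_antisymm h2 (A.cnt_ge Q)

theorem step_of_stepR (h : STEPR) : STEP := by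
  intro p _ k _ _ _ D _ _ τ e _ hτ Λ _ _ A Q hQ hgood hbad
  obtain ⟨Λ', _, _, A', h1, h2, h3⟩ := h p k D τ e hτ.toTW0 Λ A Q (hτ.fr hQ) hgood hbad
  exact ⟨Λ', _, _, A', h1, fun X _ => h2 X, h3⟩

/-- Induction over the number of bad subgroups acted on faithfully: all of them become good. -/
theorem allGoodR (hS : STEPR) (p : ℕ) [Fact p.Prime] (k : Type) [Field k] [IsAlgClosed k]
    [CharP k p] (D : Type) [CommGroup D] [Finite D] (τ : MulAut D) (e : ℕ) [NeZero e]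
    (hτ : TW0 p D τ e) : ∀ (n : ℕ) (Λ : Type) [Ring Λ] [Algebra k Λ] (A : AX k D Λ τ e),
    Nat.card {X : Subgroup D // Fr τ e X ∧ A.cnt X ≠ Nat.card D} ≤ n →
    ∃ (Λ' : Type) (_ : Ring Λ') (_ : Algebra k Λ') (A' : AX k D Λ' τ e), lB k Λ' ≤ lB k Λ ∧
      ∀ X : Subgroup D, Fr τ e X → A'.cnt X = Nat.card D := by
  intro n
  induction n with
  | zero =>
    intro Λ _ _ A hn
    refine ⟨Λ, _, _, A, le_rfl, fun X hX => ?_⟩
    by_contra h
    have h1 : IsEmpty {X : Subgroup D // Fr τ e X ∧ A.cnt X ≠ Nat.card D} := by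
      have h2 := Nat.card_eq_zero.1 (Nat.le_zero.1 hn)
      rcases h2 with h2 | h2
      · exact h2
      · exact absurd (inferInstance : Finite {X : Subgroup D // Fr τ e X ∧ A.cnt X ≠ Nat.card D})
          (not_finite_iff_infinite.2 h2)
    exact h1.false ⟨X, hX, h⟩
  | succ n ih =>
    intro Λ _ _ A hn
    by_cases hg : ∀ X : Subgroup D, Fr τ e X → A.cnt X = Nat.card D
    · exact ⟨Λ, _, _, A, le_rfl, hg⟩
    · have hg' : ∃ X : Subgroup D, Fr τ e X ∧ A.cnt X ≠ Nat.card D := by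
        by_contra h
        push Not at h
        exact hg h
      -- a bad subgroup of maximal order
      have hfin : ({X : Subgroup D | Fr τ e X ∧ A.cnt X ≠ Nat.card D}).Finite := Set.toFinite _
      obtain ⟨Q, hQ⟩ := hfin.exists_maximal hg'
      have hQ1 : Fr τ e Q := hQ.prop.1
      have hQ2 : A.cnt Q ≠ Nat.card D := hQ.prop.2
      have hup : ∀ R : Subgroup D, Q < R → A.cnt R = Nat.card D := by
        intro R hR
        by_contra h
        have h1 : R ∈ {X : Subgroup D | Fr τ e X ∧ A.cnt X ≠ Nat.card D} :=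
          ⟨hQ1.mono hR.le, h⟩
        exact absurd (hQ.le_of_ge h1 hR.le) (not_le_of_gt hR)
      obtain ⟨Λ', _, _, A', hl, hk, hq⟩ := hS p k D τ e hτ Λ A Q hQ1 hup hQ2
      have hlt : Nat.card {X : Subgroup D // Fr τ e X ∧ A'.cnt X ≠ Nat.card D}
          < Nat.card {X : Subgroup D // Fr τ e X ∧ A.cnt X ≠ Nat.card D} := by
        refine Set.ncard_lt_ncard (s := {X : Subgroup D | Fr τ e X ∧ A'.cnt X ≠ Nat.card D})
          (t := {X : Subgroup D | Fr τ e X ∧ A.cnt X ≠ Nat.card D}) ?_ (Set.toFinite _)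
        refine ⟨fun X hX => ⟨hX.1, fun h => hX.2 (hk X h)⟩, fun h => ?_⟩
        exact (h hQ.prop).2 hq
      obtain ⟨Λ'', _, _, A'', hl', hg''⟩ := ih Λ' A' (by omega)
      exact ⟨Λ'', _, _, A'', hl'.trans hl, hg''⟩

end Vale.P179.Allb
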